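import Vale.Agent.P249.Lower.Gauss
import Vale.Agent.P157.Lim.Radial

/-! Fourth moments of Lipschitz functions of a Gaussian vector. -/

open MeasureTheory ProbabilityTheory Filter
open scoped Topology NNReal
open Vale.Agent.P249.Lower
open Vale.Agent.P150 (gauss dot)
open Vale.Agent.P157.Lim (gauss_toLp)

namespace Vale.Agent.P157.Gen

/-- Gaussian concentration between independent copies, with no loss in the dimension. -/
theorem gauss_two {p : ℝ} (hp : 1 ≤ p) {N : ℕ} {φ : Euc N → ℝ} {L : ℝ≥0} (hφ : LipschitzWith L φ) :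
    ∫ z, |φ z.1 - φ z.2| ^ p ∂(stdGaussian (Euc N)).prod (stdGaussian (Euc N)) ≤ (Real.pi / 2) ^ p * ((L:ℝ) ^ p * gmom p) := by
  have hp0 : 0 < p := by linarith
  set γ := stdGaussian (Euc N) with hγ
  set P : ℝ → Euc N × Euc N → Euc N := fun θ z => Real.cos θ • z.1 + Real.sin θ • z.2 with hP
  have hPc : ∀ θ, Continuous (P θ) := fun θ => by simp only [hP]; fun_prop
  set F : ℕ → Euc N × Euc N → ℝ := fun k z =>
    |((k:ℝ) + 1) * (φ (P (Real.pi / 2 / (k + 1)) z) - φ z.1)| ^ p with hF
  have hstep : ∀ θ z, ‖P θ z - z.1‖ ≤ |θ| * (‖z.1‖ + ‖z.2‖) := by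
    intro θ z
    have e : P θ z - z.1 = (Real.cos θ - 1) • z.1 + Real.sin θ • z.2 := by
      simp only [hP, sub_smul, one_smul]; abel
    rw [e]
    refine (norm_add_le _ _).trans ?_
    rw [norm_smul, norm_smul, Real.norm_eq_abs, Real.norm_eq_abs, mul_add]
    refine add_le_add (mul_le_mul_of_nonneg_right ?_ (norm_nonneg _))
      (mul_le_mul_of_nonneg_right Real.abs_sin_le_abs (norm_nonneg _))
    have := Real.abs_cos_sub_cos_le θ 0
    simpa using this
  have hle : ∀ k : ℕ, ∫ z, |φ z.1 - φ z.2| ^ p ∂(γ.prod γ) ≤ ∫ z, F k z ∂(γ.prod γ) := by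
    intro k
    set h := Real.pi / 2 / ((k:ℝ) + 1) with hh
    set a : ℕ → Euc N × Euc N → ℝ := fun j z => φ (P (j * h) z) with ha
    have hz : ∀ z : Euc N × Euc N, φ z.1 - φ z.2 = ∑ j ∈ Finset.range (k + 1), (a j z - a (j + 1) z) := by
      intro z
      rw [Finset.sum_range_sub']
      have e : ((k + 1 : ℕ) : ℝ) * h = Real.pi / 2 := by rw [hh]; push_cast; field_simp
      simp only [ha, hP, e, Nat.cast_zero, zero_mul, Real.cos_zero, Real.sin_zero, Real.cos_pi_div_two,
        Real.sin_pi_div_two, one_smul, zero_smul, add_zero, zero_add]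
    have hpt : ∀ z : Euc N × Euc N, |φ z.1 - φ z.2| ^ p
        ≤ ((k:ℝ) + 1) ^ (p - 1) * ∑ j ∈ Finset.range (k + 1), |a j z - a (j + 1) z| ^ p := by
      intro z
      rw [hz]
      refine (Real.rpow_le_rpow (abs_nonneg _) (Finset.abs_sum_le_sum_abs _ _) hp0.le).trans ?_
      have := Real.rpow_sum_le_const_mul_sum_rpow (Finset.range (k + 1)) (fun j => a j z - a (j + 1) z) hp
      simpa using this
    have hinv : ∀ j : ℕ, ∫ z, |a j z - a (j + 1) z| ^ p ∂(γ.prod γ)
        = ∫ z, |φ (P h z) - φ z.1| ^ p ∂(γ.prod γ) := by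
      intro j
      have hrot := IsGaussian.map_rotation_eq_self (μ := γ) integral_id_stdGaussian ((j:ℝ) * h)
      conv_rhs => rw [← hrot]
      have hc : Continuous fun z : Euc N × Euc N => |φ (P h z) - φ z.1| ^ p :=
        ((hφ.continuous.comp (hPc h)).sub (hφ.continuous.comp continuous_fst)).abs.rpow_const
          fun _ => Or.inr hp0.le
      rw [integral_map (ContinuousLinearMap.continuous _).aemeasurable hc.aestronglyMeasurable]
      congr 1
      funext z
      rw [abs_sub_comm]
      simp only [ha, hP, ContinuousLinearMap.rotation_apply, Nat.cast_add, Nat.cast_one, add_mul, one_mul,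
        Real.cos_add, Real.sin_add]
      congr 4
      module
    have hi : ∀ j : ℕ, Integrable (fun z => |a j z - a (j + 1) z| ^ p) (γ.prod γ) := by
      intro j
      refine integrable_inc hp hφ _ _ (hPc _) (hPc _) (|(j:ℝ) * h| + |((j + 1 : ℕ) : ℝ) * h|) fun z => ?_
      refine (norm_sub_le_norm_sub_add_norm_sub _ z.1 _).trans ?_
      rw [add_mul]
      exact add_le_add (hstep _ z) (by rw [norm_sub_rev]; exact hstep _ z)
    have hg : Integrable (fun z : Euc N × Euc N => |φ z.1 - φ z.2| ^ p) (γ.prod γ) :=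
      integrable_inc hp hφ (fun z => z.1) (fun z => z.2) continuous_fst continuous_snd 1 fun z => by
        rw [one_mul]; exact norm_sub_le _ _
    refine (integral_mono hg ((integrable_finsetSum _ fun j _ => hi j).const_mul _) hpt).trans (le_of_eq ?_)
    rw [integral_const_mul, integral_finsetSum _ fun j _ => hi j]
    simp only [hinv, Finset.sum_const, Finset.card_range, nsmul_eq_mul, ← mul_assoc]
    rw [← integral_const_mul]
    congr 1
    funext z
    simp only [hF]
    rw [abs_mul, abs_of_pos (show (0:ℝ) < (k:ℝ) + 1 by positivity), Real.mul_rpow (by positivity) (abs_nonneg _)]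
    congr 1
    push_cast
    rw [← Real.rpow_add_one (by positivity)]
    ring_nf
  set G : Euc N × Euc N → ℝ := fun z => |Real.pi / 2 * fderiv ℝ φ z.1 z.2| ^ p with hG
  have hae : ∀ᵐ z ∂(γ.prod γ), DifferentiableAt ℝ φ z.1 := by
    have := (stdGaussian_ac N).ae_le (hφ.ae_differentiableAt_of_real (μ := volume))
    exact Measure.quasiMeasurePreserving_fst.ae this
  have hlim : ∀ᵐ z ∂(γ.prod γ), Tendsto (fun k => F k z) atTop (𝓝 (G z)) := by
    filter_upwards [hae] with z hz
    have hd : HasDerivAt (fun θ => φ (P θ z)) (fderiv ℝ φ z.1 z.2) 0 := by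
      have h1 : HasDerivAt (fun θ => P θ z) z.2 0 := by
        refine (((Real.hasDerivAt_cos 0).smul_const z.1).fun_add
          ((Real.hasDerivAt_sin 0).smul_const z.2)).congr_deriv ?_
        simp
      exact (show HasFDerivAt φ (fderiv ℝ φ z.1) (P 0 z) by simpa [hP] using hz.hasFDerivAt).comp_hasDerivAt 0 h1
    have hk : Tendsto (fun k : ℕ => Real.pi / 2 / ((k:ℝ) + 1)) atTop (𝓝[≠] 0) := by
      refine tendsto_nhdsWithin_iff.2 ⟨?_, Eventually.of_forall fun k => ne_of_gt (by positivity)⟩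
      simpa [div_eq_mul_inv] using (tendsto_one_div_add_atTop_nhds_zero_nat (𝕜 := ℝ)).const_mul (Real.pi / 2)
    have h2 := (hd.tendsto_slope_zero.comp hk).const_mul (Real.pi / 2)
    have h3 := (h2.abs).rpow_const (p := p) (Or.inr hp0.le)
    refine h3.congr fun k => ?_
    simp only [hF, Function.comp_apply, smul_eq_mul, zero_add, hP, Real.cos_zero, Real.sin_zero,
      one_smul, zero_smul, add_zero]
    congr 2
    field_simp
  have hdom : ∀ k, ∀ᵐ z ∂(γ.prod γ), ‖F k z‖ ≤ ((L:ℝ) * (Real.pi / 2)) ^ p * (‖z.1‖ + ‖z.2‖) ^ p := by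
    intro k
    refine ae_of_all _ fun z => ?_
    simp only [hF]
    rw [Real.norm_eq_abs, abs_of_nonneg (by positivity), ← Real.mul_rpow (by positivity) (by positivity)]
    refine Real.rpow_le_rpow (abs_nonneg _) ?_ hp0.le
    rw [abs_mul, abs_of_pos (show (0:ℝ) < (k:ℝ) + 1 by positivity)]
    have h1 : |φ (P (Real.pi / 2 / ((k:ℝ) + 1)) z) - φ z.1| ≤ L * ‖P (Real.pi / 2 / ((k:ℝ) + 1)) z - z.1‖ := by
      simpa [Real.norm_eq_abs] using hφ.norm_sub_le (P (Real.pi / 2 / ((k:ℝ) + 1)) z) z.1
    have h2 := hstep (Real.pi / 2 / ((k:ℝ) + 1)) z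
    rw [abs_of_pos (show 0 < Real.pi / 2 / ((k:ℝ) + 1) by positivity)] at h2
    calc ((k:ℝ) + 1) * |φ (P (Real.pi / 2 / ((k:ℝ) + 1)) z) - φ z.1|
        ≤ ((k:ℝ) + 1) * (L * (Real.pi / 2 / ((k:ℝ) + 1) * (‖z.1‖ + ‖z.2‖))) :=
          mul_le_mul_of_nonneg_left (h1.trans (mul_le_mul_of_nonneg_left h2 L.coe_nonneg)) (by positivity)
      _ = _ := by field_simp
  have hmeasF : ∀ k, AEStronglyMeasurable (F k) (γ.prod γ) := fun k =>
    ((continuous_const.mul ((hφ.continuous.comp (hPc _)).sub (hφ.continuous.comp continuous_fst))).abs.rpow_const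
      fun _ => Or.inr hp0.le).aestronglyMeasurable
  have hbint : Integrable (fun z : Euc N × Euc N => ((L:ℝ) * (Real.pi / 2)) ^ p * (‖z.1‖ + ‖z.2‖) ^ p) (γ.prod γ) :=
    (integrable_add_norm hp N).const_mul _
  have ht := tendsto_integral_of_dominated_convergence _ hmeasF hbint hdom hlim
  refine (ge_of_tendsto' ht hle).trans ?_
  have hGint : Integrable G (γ.prod γ) := by
    refine hbint.mono' (aestronglyMeasurable_of_tendsto_ae atTop hmeasF hlim) ?_
    filter_upwards [hlim, ae_all_iff.2 hdom] with z hz hd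
    exact le_of_tendsto' hz.norm hd
  rw [integral_prod G hGint]
  have hin : ∀ x, ∫ y, G (x, y) ∂γ ≤ (Real.pi / 2) ^ p * ((L:ℝ) ^ p * gmom p) := by
    intro x
    simp only [hG, abs_mul, abs_of_pos Real.pi_div_two_pos, Real.mul_rpow Real.pi_div_two_pos.le (abs_nonneg _)]
    rw [integral_const_mul, hγ, integral_dual_rpow hp0 N]
    refine mul_le_mul_of_nonneg_left (mul_le_mul_of_nonneg_right ?_
      (integral_nonneg fun t => by positivity)) (by positivity)
    exact Real.rpow_le_rpow (norm_nonneg _) (norm_fderiv_le_of_lipschitz ℝ hφ) hp0.le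
  refine (integral_mono hGint.integral_prod_left (integrable_const _) hin).trans (le_of_eq ?_)
  simp

/-- the constant of the fourth moment bound -/
noncomputable def C4 : ℝ := (Real.pi / 2) ^ 4 * gmom 4

lemma C4_nonneg : 0 ≤ C4 := mul_nonneg (by positivity) (integral_nonneg fun t => by positivity)

lemma four_tangent (a b t : ℝ) : (a - b) ^ 4 + 4 * (a - b) ^ 3 * (b - t) ≤ (a - t) ^ 4 := by
  nlinarith [sq_nonneg (((a - t) - (a - b)) * ((a - t) + (a - b))), sq_nonneg ((a - b) * ((a - t) - (a - b))),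
    mul_self_nonneg ((a - t) - (a - b))]

/-- a Lipschitz function has fourth central moment of order `L ^ 4` -/
lemma lip_four {N : ℕ} {F : (Fin N → ℝ) → ℝ} {L : ℝ} (hL : 0 ≤ L)
    (hF : ∀ y y', |F y - F y'| ≤ L * √(dot (y - y') (y - y'))) :
    Integrable F (gauss (Fin N)) ∧ Integrable (fun y => (F y - ∫ z, F z ∂gauss (Fin N)) ^ 4) (gauss (Fin N)) ∧
      ∫ y, (F y - ∫ z, F z ∂gauss (Fin N)) ^ 4 ∂gauss (Fin N) ≤ C4 * L ^ 4 := by
  set φ := fun g : Euc N => F g.ofLp
  have hφ : LipschitzWith L.toNNReal φ := LipschitzWith.of_dist_le' fun g g' => by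
    rw [Real.dist_eq, dist_eq_norm]
    refine (hF g.ofLp g'.ofLp).trans (le_of_eq ?_)
    rw [EuclideanSpace.norm_eq]
    simp only [dot, Pi.sub_apply, Real.norm_eq_abs, sq_abs, PiLp.sub_apply, ← sq]
  set γ := stdGaussian (Euc N)
  have hm : Measurable (WithLp.toLp 2 : (Fin N → ℝ) → Euc N) := by fun_prop
  have key := gauss_two (p := 4) (by norm_num) hφ
  have e4 : ∀ t : ℝ, |t| ^ (4:ℝ) = t ^ 4 := fun t => by
    rw [show (4:ℝ) = ((4:ℕ):ℝ) by norm_num, Real.rpow_natCast, pow_abs, abs_of_nonneg (by positivity)]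
  have rp : ∀ t : ℝ, t ^ (4:ℝ) = t ^ 4 := fun t => by
    rw [show (4:ℝ) = ((4:ℕ):ℝ) by norm_num, Real.rpow_natCast]
  simp only [rp, Even.pow_abs (show Even 4 by decide), Real.coe_toNNReal L hL] at key
  have iφ : Integrable φ γ := by
    refine ((integrable_const |φ 0|).add ((IsGaussian.integrable_id (μ := γ)).norm.const_mul L)).mono'
      hφ.continuous.aestronglyMeasurable (Eventually.of_forall fun g => ?_)
    have := hφ.norm_sub_le g 0
    rw [sub_zero, Real.coe_toNNReal L hL, Real.norm_eq_abs] at this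
    rw [Real.norm_eq_abs, Pi.add_apply]
    show |φ g| ≤ |φ 0| + L * ‖g‖
    linarith [abs_sub_abs_le_abs_sub (φ g) (φ 0)]
  have i4 : Integrable (fun z : Euc N × Euc N => (φ z.1 - φ z.2) ^ 4) (γ.prod γ) := by
    have := integrable_inc (p := 4) (by norm_num) hφ (fun z => z.1) (fun z => z.2) continuous_fst continuous_snd 1
      fun z => by rw [one_mul]; exact norm_sub_le _ _
    simpa only [e4] using this
  set m := ∫ g, φ g ∂γ
  have hpt : ∀ᵐ g ∂γ, (φ g - m) ^ 4 ≤ ∫ g', (φ g - φ g') ^ 4 ∂γ := by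
    filter_upwards [i4.prod_right_ae] with g hg
    have h := integral_mono ((integrable_const ((φ g - m) ^ 4)).add
      (((integrable_const m).sub iφ).const_mul (4 * (φ g - m) ^ 3))) hg fun g' => four_tangent (φ g) m (φ g')
    rw [integral_add' (integrable_const _) (((integrable_const m).sub iφ).const_mul _), integral_const_mul,
      integral_sub' (integrable_const _) iφ] at h
    simpa [m] using h
  have im : Integrable (fun g => (φ g - m) ^ 4) γ := by
    refine i4.integral_prod_left.mono' ((hφ.continuous.sub continuous_const).pow 4).aestronglyMeasurable ?_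
    filter_upwards [hpt] with g hg
    rw [Real.norm_eq_abs, abs_of_nonneg (by positivity)]
    exact hg
  have h4 : ∫ g, (φ g - m) ^ 4 ∂γ ≤ C4 * L ^ 4 := by
    refine (integral_mono_ae im i4.integral_prod_left hpt).trans ?_
    rw [← integral_prod _ i4, C4]
    refine key.trans (le_of_eq ?_)
    ring
  have e := gauss_toLp N
  have em : m = ∫ y, F y ∂gauss (Fin N) := by
    simp only [m, γ]
    rw [← e, integral_map hm.aemeasurable hφ.continuous.aestronglyMeasurable]
  simp only [γ] at iφ im h4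
  rw [← e] at iφ im h4
  refine ⟨(integrable_map_measure hφ.continuous.aestronglyMeasurable hm.aemeasurable).1 iφ, ?_, ?_⟩
  · rw [← em]
    exact (integrable_map_measure ((hφ.continuous.sub continuous_const).pow 4).aestronglyMeasurable hm.aemeasurable).1 im
  · rw [integral_map (f := fun g => (φ g - m) ^ 4) hm.aemeasurable ((hφ.continuous.sub continuous_const).pow 4).aestronglyMeasurable] at h4
    rw [← em]
    exact h4

end Vale.Agent.P157.Gen
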