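import Vale.Agent.P157.Gen.Path
import Vale.Agent.P157.Upper

/-! The channel entropy of a finite space on the sphere against `l/2 - log (1+l)/2`. -/

open MeasureTheory ProbabilityTheory Set Filter
open scoped Topology
open Vale.Agent.P150 (gauss dot l1 integrable_of_bound integrable_exp_l1)
open Vale.Agent.P157.Teach hiding avm avm_add avm_smul avm_mono avm_congr avm_one ke lp lpB lpB_nonneg abs_lp measurable_lp kk

namespace Vale.Agent.P157.Gen

/-- the channel entropy of the Gaussian prior -/
noncomputable def J (l : ℝ) : ℝ := l / 2 - Real.log (1 + l) / 2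

/-- log of the channel output density under the Gaussian prior -/
noncomputable def lgz {N : ℕ} (l : ℝ) (y : Fin N → ℝ) : ℝ :=
  ∑ i, (-Real.log (1 + l) / 2 + (√l * y i) ^ 2 / (2 * (1 + l)))

lemma gauss_quad {a : ℝ} (ha : -1 < a) (b : ℝ) :
    Integrable (fun t => Real.exp (b * t - a * t ^ 2 / 2)) (gaussianReal 0 1) ∧
      ∫ t, Real.exp (b * t - a * t ^ 2 / 2) ∂gaussianReal 0 1 =
        Real.exp (-Real.log (1 + a) / 2 + b ^ 2 / (2 * (1 + a))) := by
  obtain ⟨c, rfl⟩ : ∃ c, a = c - 1 := ⟨1 + a, by ring⟩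
  have hc : 0 < c := by linarith
  rw [show 1 + (c - 1) = c by ring]
  set F := fun t : ℝ => Real.exp (-(c / 2) * t ^ 2)
  have e : ∀ t : ℝ, gaussianPDFReal 0 1 t * Real.exp (b * t - (c - 1) * t ^ 2 / 2) =
      (√(2 * Real.pi))⁻¹ * Real.exp (b ^ 2 / (2 * c)) * F (t - b / c) := fun t => by
    simp only [F, gaussianPDFReal_def, NNReal.coe_one, mul_one, sub_zero, mul_assoc, ← Real.exp_add]
    congr 2
    field_simp
    ring
  constructor
  · rw [gaussianReal_of_var_ne_zero 0 one_ne_zero, integrable_withDensity_iff (measurable_gaussianPDF 0 1)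
      (Eventually.of_forall fun t => gaussianPDF_lt_top)]
    simp only [toReal_gaussianPDF, mul_comm (Real.exp _), e]
    exact ((integrable_exp_neg_mul_sq (half_pos hc)).comp_sub_right (b / c)).const_mul _
  · rw [integral_gaussianReal_eq_integral_smul one_ne_zero]
    simp only [smul_eq_mul, e, integral_const_mul]
    rw [integral_sub_right_eq_self F (b / c), integral_gaussian, Real.exp_add,
      show -Real.log c / 2 = -Real.log (√c) by rw [Real.log_sqrt hc.le]; ring, Real.exp_neg,
      Real.exp_log (Real.sqrt_pos.2 hc)]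
    rw [show Real.pi / (c / 2) = 2 * Real.pi / c by ring, Real.sqrt_div (by positivity)]
    have : √(2 * Real.pi) ≠ 0 := by positivity
    field_simp

variable {N : ℕ}

lemma lgz_eq (l : ℝ) (hl : 0 ≤ l) (y : Fin N → ℝ) :
    lgz l y = -(N * Real.log (1 + l) / 2) + l / (2 * (1 + l)) * dot y y := by
  simp only [lgz, dot, Finset.sum_add_distrib, Finset.sum_const, Finset.card_univ, Fintype.card_fin,
    nsmul_eq_mul, Finset.mul_sum, mul_pow, Real.sq_sqrt hl]
  congr 1
  · ring
  · exact Finset.sum_congr rfl fun i _ => by ring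

/-- the Gaussian prior -/
lemma lgz_int (l : ℝ) (hl : 0 ≤ l) :
    (∀ y : Fin N → ℝ, Integrable (fun g => Real.exp (√l * dot g y - l * dot g g / 2)) (gauss (Fin N)) ∧
      ∫ g, Real.exp (√l * dot g y - l * dot g g / 2) ∂gauss (Fin N) = Real.exp (lgz l y)) ∧
    Integrable (fun y : Fin N → ℝ => Real.exp (lgz l y)) (gauss (Fin N)) ∧
      ∫ y : Fin N → ℝ, Real.exp (lgz l y) ∂gauss (Fin N) = 1 := by
  constructor
  · intro y
    have hq := fun i => gauss_quad (show -1 < l by linarith) (√l * y i)
    have e : ∀ g : Fin N → ℝ, Real.exp (√l * dot g y - l * dot g g / 2) =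
        ∏ i, Real.exp (√l * y i * g i - l * g i ^ 2 / 2) := fun g => by
      rw [← Real.exp_sum]
      simp only [dot, Finset.mul_sum, Finset.sum_div, ← Finset.sum_sub_distrib]
      exact congrArg Real.exp (Finset.sum_congr rfl fun i _ => by ring)
    simp only [e]
    refine ⟨Integrable.fintype_prod (f := fun i t => Real.exp (√l * y i * t - l * t ^ 2 / 2)) fun i => (hq i).1, ?_⟩
    rw [gauss, integral_fintype_prod_eq_prod fun i t => Real.exp (√l * y i * t - l * t ^ 2 / 2), lgz, Real.exp_sum]
    exact Finset.prod_congr rfl fun i _ => (hq i).2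
  · set k := -(l / (1 + l))
    have hk1 : 1 + k = (1 + l)⁻¹ := by simp only [k]; field_simp; ring
    have hk : -1 < k := by
      have := inv_pos.2 (show 0 < 1 + l by linarith)
      linarith
    obtain ⟨i1, i2⟩ := gauss_quad hk 0
    rw [hk1, Real.log_inv] at i2
    have e : ∀ t : ℝ, Real.exp (-Real.log (1 + l) / 2 + (√l * t) ^ 2 / (2 * (1 + l))) =
        Real.exp (-Real.log (1 + l) / 2) * Real.exp (0 * t - k * t ^ 2 / 2) := fun t => by
      rw [← Real.exp_add]
      simp only [k, mul_pow, Real.sq_sqrt hl]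
      refine congrArg Real.exp ?_
      field_simp
      ring
    simp only [lgz, Real.exp_sum, e]
    refine ⟨Integrable.fintype_prod (f := fun _ t => Real.exp (-Real.log (1 + l) / 2) * Real.exp (0 * t - k * t ^ 2 / 2))
      fun i => i1.const_mul _, ?_⟩
    rw [gauss, integral_fintype_prod_eq_pow fun t => Real.exp (-Real.log (1 + l) / 2) * Real.exp (0 * t - k * t ^ 2 / 2),
      integral_const_mul, i2, ← Real.exp_add]
    simp [neg_div]

/-- squared norm and `l¹` norm of a shifted Gaussian vector -/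
lemma shift_sq (a : Fin N → ℝ) :
    ∫ y, dot (y + a) (y + a) ∂gauss (Fin N) = N + dot a a := by
  have i : ∀ c : ℝ, Integrable (fun t : ℝ => (t + c) * (t + c)) (gaussianReal 0 1) ∧
      ∫ t, (t + c) * (t + c) ∂gaussianReal 0 1 = 1 + c * c := fun c => by
    have e : (fun t : ℝ => (t + c) * (t + c)) = fun t => t ^ 2 + (2 * c * t + c * c) := funext fun t => by ring
    have h1 : Integrable (fun t : ℝ => t) (gaussianReal 0 1) := (memLp_id_gaussianReal 1).integrable le_rfl
    have h2 : Integrable (fun t => 2 * c * t + c * c) (gaussianReal 0 1) := (h1.const_mul _).add (integrable_const _)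
    rw [e]
    refine ⟨integrable_gauss_sq.add h2, ?_⟩
    rw [integral_add integrable_gauss_sq h2, integral_gauss_sq, integral_add (h1.const_mul _) (integrable_const _),
      integral_const_mul, integral_id_gaussianReal]
    simp
  simp only [dot, Pi.add_apply, gauss]
  rw [integral_finsetSum _ fun j _ => integrable_comp_eval (μ := fun _ : Fin N => gaussianReal 0 1) (i := j)
    (f := fun t => (t + a j) * (t + a j)) (i (a j)).1]
  have e : ∀ j, ∫ y : Fin N → ℝ, (y j + a j) * (y j + a j) ∂Measure.pi (fun _ => gaussianReal 0 1) = 1 + a j * a j := fun j =>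
    (integral_comp_eval (μ := fun _ : Fin N => gaussianReal 0 1) (i := j)
      (f := fun t => (t + a j) * (t + a j)) (i (a j)).1.aestronglyMeasurable).trans (i (a j)).2
  simp [e, Finset.sum_add_distrib]

lemma dot_self_le_exp (y : Fin N → ℝ) : |dot y y| ≤ 2 * Real.exp (l1 y) := by
  have h0 := Vale.Agent.P150.l1_nonneg y
  have h1 : |dot y y| ≤ l1 y * l1 y := Vale.Agent.P150.abs_dot_le (fun i => Vale.Agent.P150.abs_le_l1 y i) y
  have h2 := Real.quadratic_le_exp_of_nonneg h0
  linarith

section Geo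

variable {S : Type} [Fintype S] [Nonempty S] {x : S → Fin N → ℝ} {c : S → ℝ} (hG : Geo x c) {l : ℝ} (hl : 0 ≤ l)
include hG hl

lemma tilt_int {F : (Fin N → ℝ) → ℝ} (hF : Continuous F) {C M : ℝ} (hb : ∀ y, |F y| ≤ C * Real.exp (M * l1 y)) :
    Integrable (fun y => tt (zed x c l y) * F y) (gauss (Fin N)) ∧
      ∫ y, tt (zed x c l y) * F y ∂gauss (Fin N) =
        ∑ s, Real.exp (c s) * ∫ y, F (y + fun i => √l * x s i) ∂gauss (Fin N) := by
  have e : ∀ (s : S) (y : Fin N → ℝ), Real.exp (zed x c l y s) =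
      Real.exp (c s) * Real.exp (dot (fun i => √l * x s i) y - (∑ i, (√l * x s i) ^ 2) / 2) := fun s y => by
    have h1 : (∑ i, (√l * x s i) ^ 2) = l * Fintype.card (Fin N) := by
      rw [← hG.self s, dot, Finset.mul_sum]
      exact Finset.sum_congr rfl fun i _ => by rw [mul_pow, Real.sq_sqrt hl, sq]
    rw [← Real.exp_add, h1, zed]
    simp only [dot, Finset.mul_sum, mul_assoc]
    exact congrArg Real.exp (by ring)
  have hi : ∀ s, Integrable (fun y => Real.exp (zed x c l y s) * F y) (gauss (Fin N)) := fun s => by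
    refine integrable_of_bound (C := Real.exp ‖c‖ * C) (M := √l * ‖x‖ + M) ((by unfold zed dot; fun_prop : Continuous _).mul hF)
      fun y => ?_
    rw [abs_mul, Real.abs_exp, add_mul, Real.exp_add, mul_mul_mul_comm, ← Real.exp_add]
    refine mul_le_mul (Real.exp_le_exp.2 ?_) (hb y) (abs_nonneg _) (Real.exp_pos _).le
    have h1 := Vale.Agent.P150.abs_dot_le (xb x s) y
    have h2 := mul_le_mul_of_nonneg_left ((le_abs_self _).trans h1) (Real.sqrt_nonneg l)
    have h3 : c s ≤ ‖c‖ := (le_abs_self _).trans (norm_le_pi_norm c s)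
    have h4 : 0 ≤ (Fintype.card (Fin N) : ℝ) * l / 2 := by positivity
    rw [zed]
    linarith
  simp only [tt, Finset.sum_mul]
  refine ⟨integrable_finsetSum _ fun s _ => hi s, ?_⟩
  rw [integral_finsetSum _ fun s _ => hi s]
  refine Finset.sum_congr rfl fun s _ => ?_
  simp only [e, mul_assoc, integral_const_mul, gauss_shift]

lemma tilt_one : Integrable (fun y => tt (zed x c l y)) (gauss (Fin N)) ∧
    ∫ y, tt (zed x c l y) ∂gauss (Fin N) = 1 := by
  obtain ⟨i, e⟩ := tilt_int hG hl (F := fun _ => 1) continuous_const (C := 1) (M := 0) fun y => by simp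
  simp only [mul_one, integral_const, probReal_univ, one_smul, hG.mass] at i e
  exact ⟨i, e⟩

lemma tilt_dot : Integrable (fun y => tt (zed x c l y) * dot y y) (gauss (Fin N)) ∧
    ∫ y, tt (zed x c l y) * dot y y ∂gauss (Fin N) = N + l * N := by
  obtain ⟨i, e⟩ := tilt_int hG hl (F := fun y => dot y y) (by unfold dot; fun_prop) (C := 2) (M := 1) fun y => by
    simpa using dot_self_le_exp y
  have h : ∀ s, dot (fun i => √l * x s i) (fun i => √l * x s i) = l * N := fun s => by
    rw [← hG.nrm s]
    simp only [dot, Finset.mul_sum]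
    exact Finset.sum_congr rfl fun i _ => by rw [mul_mul_mul_comm, Real.mul_self_sqrt hl]
  simp only [shift_sq, h, ← Finset.sum_mul, hG.mass, one_mul] at e
  exact ⟨i, e⟩

omit hG hl in
lemma k0_eq : (N:ℝ) * k0 x c l = (N:ℝ) * ((∫ y, ent (zed x c l y) ∂gauss (Fin N)) / N) := by
  have e : ∀ g : Fin 0 → Fin N → ℝ, lp x c (fun a : Fin 0 => a.elim0) g = c := fun g => by funext s; simp [lp]
  simp [k0, ke, avm, av, e]

lemma tilt_lgz : Integrable (fun y => tt (zed x c l y) * lgz l y) (gauss (Fin N)) ∧
    ∫ y, tt (zed x c l y) * lgz l y ∂gauss (Fin N) = N * J l := by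
  obtain ⟨i1, e1⟩ := tilt_one hG hl
  obtain ⟨i2, e2⟩ := tilt_dot hG hl
  have e : ∀ y, tt (zed x c l y) * lgz l y =
      -(N * Real.log (1 + l) / 2) * tt (zed x c l y) + l / (2 * (1 + l)) * (tt (zed x c l y) * dot y y) := fun y => by
    rw [lgz_eq l hl]; ring
  simp only [e]
  refine ⟨(i1.const_mul _).add (i2.const_mul _), ?_⟩
  rw [integral_add (i1.const_mul _) (i2.const_mul _), integral_const_mul, integral_const_mul, e1, e2, J]
  field_simp
  ring

/-- the Gaussian prior has the smallest channel entropy -/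
lemma k0_lower : J l ≤ k0 x c l := by
  have hN0 : (0:ℝ) < N := by exact_mod_cast hG.pos
  obtain ⟨i1, e1⟩ := tilt_one hG hl
  obtain ⟨i2, e2⟩ := tilt_lgz hG hl
  obtain ⟨i3, e3⟩ := (lgz_int (N := N) l hl).2
  have h := integral_mono ((i2.add i1).sub i3) (integrable_gro (xb x) gro_ent c l) fun y => ?_
  · rw [integral_sub' (i2.add i1) i3, integral_add' i2 i1, e1, e2, e3] at h
    refine le_of_mul_le_mul_left ?_ hN0
    rw [k0_eq, mul_div_cancel₀ _ hN0.ne']
    linarith
  · simp only [Pi.sub_apply, Pi.add_apply, ent]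
    have ha := tt_pos (zed x c l y)
    have := mul_le_mul_of_nonneg_left (Real.add_one_le_exp (lgz l y - Real.log (tt (zed x c l y)))) ha.le
    rw [Real.exp_sub, Real.exp_log ha, mul_div_cancel₀ _ ha.ne'] at this
    linarith

/-- an upper bound on the channel entropy from a bound on the output density -/
lemma k0_upper {A B E I : ℝ} (hE : 0 ≤ E) (hI : ∫ y : Fin N → ℝ, l1 y ∂gauss (Fin N) ≤ I)
    (h : ∀ y, Real.log (tt (zed x c l y)) ≤ lgz l y + A + B * dot y y + E * l1 y) :
    (N:ℝ) * k0 x c l ≤ N * J l + A + B * (N + l * N) + E * (I + √l * (N * √(N:ℝ))) := by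
  have hN0 : (0:ℝ) < N := by exact_mod_cast hG.pos
  obtain ⟨i1, e1⟩ := tilt_one hG hl
  obtain ⟨i2, e2⟩ := tilt_lgz hG hl
  obtain ⟨i3, e3⟩ := tilt_dot hG hl
  obtain ⟨i4, e4⟩ := tilt_int hG hl (F := fun y => l1 y) (by unfold l1; fun_prop) (C := 1) (M := 1) fun y => by
    rw [one_mul, one_mul, abs_of_nonneg (Vale.Agent.P150.l1_nonneg y)]
    linarith [Real.add_one_le_exp (l1 y)]
  have il : Integrable (fun y : Fin N → ℝ => l1 y) (gauss (Fin N)) :=
    integrable_of_bound (C := 1) (M := 1) (by unfold l1; fun_prop) fun y => by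
      rw [one_mul, one_mul, abs_of_nonneg (Vale.Agent.P150.l1_nonneg y)]
      linarith [Real.add_one_le_exp (l1 y)]
  have hl1 : ∫ y, tt (zed x c l y) * l1 y ∂gauss (Fin N) ≤ I + √l * (N * √(N:ℝ)) := by
    rw [e4]
    refine (Finset.sum_le_sum fun s _ => show _ ≤ Real.exp (c s) * (I + √l * (N * √(N:ℝ))) from ?_).trans_eq
      (by rw [← Finset.sum_mul, hG.mass, one_mul])
    refine mul_le_mul_of_nonneg_left ?_ (Real.exp_pos _).le
    refine (integral_mono_of_nonneg (Eventually.of_forall fun y => Vale.Agent.P150.l1_nonneg _)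
      (il.add (integrable_const _)) (Eventually.of_forall fun y => show _ ≤ l1 y + √l * (N * √(N:ℝ)) from ?_)).trans ?_
    · refine (Finset.sum_le_sum fun i _ => abs_add_le (y i) (√l * x s i)).trans ?_
      rw [Finset.sum_add_distrib]
      refine add_le_add le_rfl ((Finset.sum_le_sum fun i _ => show _ ≤ √l * √(N:ℝ) from ?_).trans_eq (by simp; ring))
      rw [abs_mul, abs_of_nonneg (Real.sqrt_nonneg l)]
      exact mul_le_mul_of_nonneg_left (hG.bd s i) (Real.sqrt_nonneg l)
    · rw [integral_add' il (integrable_const _), integral_const, probReal_univ, one_smul]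
      linarith
  have hm := integral_mono (integrable_gro (xb x) gro_ent c l)
    (((i2.add (i1.const_mul A)).add (i3.const_mul B)).add (i4.const_mul E)) fun y => ?_
  · rw [integral_add' ((i2.add (i1.const_mul A)).add (i3.const_mul B)) (i4.const_mul E),
      integral_add' (i2.add (i1.const_mul A)) (i3.const_mul B), integral_add' i2 (i1.const_mul A),
      integral_const_mul, integral_const_mul, integral_const_mul, e1, e2, e3] at hm
    rw [k0_eq, mul_div_cancel₀ _ hN0.ne']
    linarith [mul_le_mul_of_nonneg_left hl1 hE]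
  · simp only [Pi.add_apply, ent]
    linarith [mul_le_mul_of_nonneg_left (h y) (tt_pos (zed x c l y)).le]

end Geo

end Vale.Agent.P157.Gen
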