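import Vale.Agent.P157.Gen.Model
import Vale.Agent.P157.Gen.Lip
import Vale.Agent.P157.Teach.Conc

/-! The planted law on a finite space and the antiderivative that dominates overlap fluctuations. -/

open MeasureTheory ProbabilityTheory Set Filter
open scoped Topology ENNReal NNReal
open Vale.Agent.P150 (gauss dot l1 integrable_of_bound integrable_exp_l1)
open Vale.Agent.P157.Teach hiding avm avm_add avm_smul avm_mono avm_congr avm_one ovm dfl ke ell lp qU prob_qU pot4

namespace Vale.Agent.P157.Gen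

variable {N : ℕ} {S : Type} [Fintype S] {lo hi : ℝ} {x : S → Fin N → ℝ} {c : S → ℝ} {m : ℕ}

/-- `log Z` -/
noncomputable def ell (x : S → Fin N → ℝ) (c : S → ℝ) (U : ℝ → ℝ) (l : ℝ) (g : Fin m → Fin N → ℝ) (y : Fin N → ℝ) : ℝ :=
  Real.log (tt (zed x (lp x c (fun _ => U) g) l y))

/-- the law of one pattern planted at `v` -/
noncomputable def qU (v : Fin N → ℝ) (U : ℝ → ℝ) : Measure (Fin N → ℝ) :=
  (gauss (Fin N)).withDensity fun g => ENNReal.ofReal (U (dot v g))

/-- mean of `log Z` given the planted configuration -/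
noncomputable def pmean (x : S → Fin N → ℝ) (c : S → ℝ) (U : ℝ → ℝ) (m : ℕ) (l : ℝ) (s : S) : ℝ :=
  ∫ g : Fin m → Fin N → ℝ, ∫ y, ell x c U l g (y + fun i => √l * x s i) ∂gauss (Fin N)
    ∂Measure.pi (fun _ : Fin m => qU (xn x s) U)

/-- the planted mean hardly depends on the planted configuration -/
def Spread (x : S → Fin N → ℝ) (c : S → ℝ) (U : ℝ → ℝ) (m : ℕ) (l : ℝ) : Prop :=
  ∀ s t, |pmean x c U m l s - pmean x c U m l t| ≤ √(N:ℝ)

/-- the constant of the moment bound -/
noncomputable def K4 (lo hi α l : ℝ) : ℝ := 27 * (C4 * l ^ 2 + 48 * Real.exp (2 * α * lb lo hi ^ 2) + 1)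

lemma K4_nonneg {α l : ℝ} : 0 ≤ K4 lo hi α l := by
  have := C4_nonneg
  unfold K4; positivity

lemma K4_mono {α α' l l' : ℝ} (hα : α ≤ α') (hl : 0 ≤ l) (hll : l ≤ l') : K4 lo hi α l ≤ K4 lo hi α' l' := by
  have := C4_nonneg
  unfold K4
  gcongr

lemma gauss_tilt (a : ℝ) :
    (gaussianReal 0 1).withDensity (fun t => ENNReal.ofReal (Real.exp (a * t - a ^ 2 / 2))) = gaussianReal a 1 := by
  rw [gaussianReal_of_var_ne_zero _ one_ne_zero, gaussianReal_of_var_ne_zero _ one_ne_zero,
    ← withDensity_mul _ (by fun_prop) (by fun_prop)]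
  congr 1
  funext t
  simp only [Pi.mul_apply, gaussianPDF, gaussianPDFReal, NNReal.coe_one]
  rw [← ENNReal.ofReal_mul (by positivity), mul_assoc, ← Real.exp_add]
  congr 3
  ring

lemma gauss_shift (a : Fin N → ℝ) (F : (Fin N → ℝ) → ℝ) :
    ∫ y, Real.exp (dot a y - (∑ i, a i ^ 2) / 2) * F y ∂gauss (Fin N) = ∫ y, F (y + a) ∂gauss (Fin N) := by
  set w := fun (i : Fin N) (t : ℝ) => Real.exp (a i * t - a i ^ 2 / 2)
  have e : ∀ y, Real.exp (dot a y - (∑ i, a i ^ 2) / 2) = ∏ i, w i (y i) := fun y => by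
    simp only [w, ← Real.exp_sum, Finset.sum_sub_distrib, Finset.sum_div, dot]
  have hp : Measure.pi (fun i => gaussianReal (a i) 1) =
      (gauss (Fin N)).withDensity fun y => ENNReal.ofReal (∏ i, w i (y i)) := by
    refine Measure.pi_eq fun s hs => ?_
    rw [withDensity_apply _ (MeasurableSet.univ_pi hs), Finset.prod_congr rfl fun i (_ : i ∈ Finset.univ) =>
      show gaussianReal (a i) 1 (s i) = ∫⁻ t in s i, ENNReal.ofReal (w i t) ∂gaussianReal 0 1 by
        rw [← gauss_tilt (a i), withDensity_apply _ (hs i)]]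
    rw [← lintegral_indicator (MeasurableSet.univ_pi hs)]
    have e2 : (Set.univ.pi s).indicator (fun y => ENNReal.ofReal (∏ i, w i (y i))) =
        fun y => ∏ i, (s i).indicator (fun t => ENNReal.ofReal (w i t)) (y i) := by
      funext y
      by_cases h : y ∈ Set.univ.pi s
      · rw [Set.indicator_of_mem h, ENNReal.ofReal_prod_of_nonneg fun i _ => (Real.exp_pos _).le]
        exact Finset.prod_congr rfl fun i _ => (Set.indicator_of_mem (h i (Set.mem_univ i)) (fun t => ENNReal.ofReal (w i t))).symm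
      · obtain ⟨i, hi⟩ : ∃ i, y i ∉ s i := by simpa using h
        rw [Set.indicator_of_notMem h]
        exact (Finset.prod_eq_zero (Finset.mem_univ i) (Set.indicator_of_notMem hi _)).symm
    rw [e2, gauss, lintegral_prod_fin fun i => (by fun_prop : Measurable fun t => ENNReal.ofReal (w i t)).indicator (hs i)]
    exact Finset.prod_congr rfl fun i _ => lintegral_indicator (hs i) _
  have hmap : (gauss (Fin N)).map (fun y => y + a) = Measure.pi (fun i => gaussianReal (a i) 1) := by
    rw [gauss, show (fun y : Fin N → ℝ => y + a) = fun y i => y i + a i from rfl,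
      Measure.pi_map_pi (f := fun i t => t + a i) fun i => (by fun_prop : Measurable fun t => t + a i).aemeasurable]
    simp only [gaussianReal_map_add_const, zero_add]
  have he : MeasurableEmbedding fun y : Fin N → ℝ => y + a := (MeasurableEquiv.addRight a).measurableEmbedding
  rw [← he.integral_map (g := F), hmap, hp,
    Teach.integral_withDensity_ofReal (by fun_prop) fun y => Finset.prod_nonneg fun i _ => (Real.exp_pos _).le]
  simp only [e, w]

lemma prob_qU (hG : Geo x c) {U : ℝ → ℝ} (hU : Pw U lo hi) (s : S) : IsProbabilityMeasure (qU (xn x s) U) := by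
  refine ⟨?_⟩
  rw [qU, withDensity_apply _ MeasurableSet.univ, Measure.restrict_univ,
    ← ofReal_integral_eq_lintegral_ofReal, integral_arg hU.meas (xn_self hG s), hU.mean, ENNReal.ofReal_one]
  · exact Integrable.of_bound (hU.meas.comp (by unfold dot; fun_prop)).aestronglyMeasurable hi
      (Eventually.of_forall fun g => hU.abs_V _)
  · exact Eventually.of_forall fun g => (hU.pos.trans_le (hU.ge _)).le

variable [Nonempty S]

/-- change of measure to planted configurations -/
lemma avm_planted (hG : Geo x c) {U : ℝ → ℝ} (hU : Pw U lo hi) {l : ℝ} (hl : 0 ≤ l) {G : ℝ → ℝ}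
    (hgro : Gro fun z : S → ℝ => tt z * G (Real.log (tt z))) :
    avm x c (fun _ : Fin m => U) (fun z => tt z * G (Real.log (tt z))) l =
      ∑ s, Real.exp (c s) * ∫ g, ∫ y, G (ell x c U l g (y + fun i => √l * x s i)) ∂gauss (Fin N)
        ∂Measure.pi (fun _ : Fin m => qU (xn x s) U) := by
  set V : Fin m → ℝ → ℝ := fun _ => U
  set T := fun (s : S) (z : S → ℝ) => Real.exp (z s) * G (Real.log (tt z))
  have gT : ∀ s, Gro (T s) := fun s => by
    have h := ((Gro.expEval (S := S) s).mul gro_inv_tt).mul hgro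
    have e : T s = fun z => Real.exp (z s) * (tt z)⁻¹ * (tt z * G (Real.log (tt z))) := funext fun z => by
      have := (tt_pos z).ne'
      simp only [T]; field_simp
    rw [e]; exact h
  have hsum : avm x c V (fun z => tt z * G (Real.log (tt z))) l = ∑ s, avm x c V (T s) l := by
    rw [avm_congr (G := fun z => ∑ s, T s z) (fun z => by simp only [T, tt, Finset.sum_mul])]
    unfold avm av
    rw [← integral_finsetSum _ fun s _ =>
      integrable_inner (xb x) (measurable_lp (x := x) (c := c) fun _ => hU) (lpB_nonneg c m)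
        (fun g s => abs_lp (x := x) (c := c) (fun _ => hU) g s) (gT s) l]
    exact integral_congr_ae (Eventually.of_forall fun g => integral_finsetSum _ fun s _ =>
      integrable_gro (xb x) (gT s) _ l)
  rw [hsum]
  refine Finset.sum_congr rfl fun s _ => ?_
  set u := fun g : Fin N → ℝ => U (dot (xn x s) g)
  have hu : Measurable u := hU.meas.comp (by unfold dot; fun_prop)
  have hu0 : ∀ g, 0 ≤ u g := fun g => (hU.pos.trans_le (hU.ge _)).le
  have : IsProbabilityMeasure ((gauss (Fin N)).withDensity fun g => ENNReal.ofReal (u g)) := prob_qU hG hU s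
  rw [show qU (xn x s) U = (gauss (Fin N)).withDensity fun g => ENNReal.ofReal (u g) from rfl,
    pi_withDensity (μ := gauss (Fin N)) (u := u) hu hu0 m,
    Teach.integral_withDensity_ofReal (u := fun g : Fin m → Fin N → ℝ => ∏ a, u (g a))
      (Finset.measurable_prod _ fun a _ => hu.comp (measurable_pi_apply a)) fun g => Finset.prod_nonneg fun a _ => hu0 _]
  unfold avm av
  rw [← integral_const_mul]
  refine integral_congr_ae (Eventually.of_forall fun g => ?_)
  dsimp only
  rw [← gauss_shift (fun i => √l * x s i) (fun y => G (ell x c U l g y)), ← integral_const_mul, ← integral_const_mul]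
  refine integral_congr_ae (Eventually.of_forall fun y => ?_)
  have e1 : (∏ a, u (g a)) = Real.exp (∑ a, Real.log (U (dot (xn x s) (g a)))) := by
    rw [Real.exp_sum]; exact Finset.prod_congr rfl fun a _ => (Real.exp_log (hU.pos.trans_le (hU.ge _))).symm
  have e2 : dot (fun i => √l * x s i) y - (∑ i, (√l * x s i) ^ 2) / 2 = √l * dot (x s) y - Fintype.card (Fin N) * l / 2 := by
    have h1 : (∑ i, (√l * x s i) ^ 2) = l * Fintype.card (Fin N) := by
      rw [← hG.self s, dot, Finset.mul_sum]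
      exact Finset.sum_congr rfl fun i _ => by rw [mul_pow, Real.sq_sqrt hl, sq]
    have h2 : dot (fun i => √l * x s i) y = √l * dot (x s) y := by
      simp only [dot, Finset.mul_sum, mul_assoc]
    rw [h1, h2]; ring
  dsimp only
  rw [e1, e2]
  simp only [T, zed, lp, V, Real.exp_add]
  show _ = _ * (_ * (_ * G (Real.log (tt (zed x (lp x c (fun _ => U) g) l y)))))
  ring

section Moments

variable (hG : Geo x c) {U : ℝ → ℝ} (hU : Pw U lo hi) {l : ℝ} (hl : 0 ≤ l)
include hG hU hl

omit hU in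
lemma ell_lip (g : Fin m → Fin N → ℝ) (a y y' : Fin N → ℝ) :
    |ell x c U l g (y + a) - ell x c U l g (y' + a)| ≤ √(l * N) * √(dot (y - y') (y - y')) := by
  refine (log_tt_sub _ _).trans ((pi_norm_le_iff_of_nonneg (by positivity)).2 fun s => ?_)
  simp only [Pi.sub_apply, zed, Real.norm_eq_abs]
  rw [show lp x c (fun _ => U) g s + (√l * dot (x s) (y + a) - Fintype.card (Fin N) * l / 2) -
      (lp x c (fun _ => U) g s + (√l * dot (x s) (y' + a) - Fintype.card (Fin N) * l / 2)) =
      √l * (dot (x s) (y + a) - dot (x s) (y' + a)) by ring, abs_mul, abs_of_nonneg (Real.sqrt_nonneg l),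
    Real.sqrt_mul hl, mul_assoc]
  refine mul_le_mul_of_nonneg_left ?_ (Real.sqrt_nonneg l)
  have e : dot (x s) (y + a) - dot (x s) (y' + a) = ∑ i, x s i * (y - y') i := by
    simp only [dot, ← Finset.sum_sub_distrib]
    exact Finset.sum_congr rfl fun i _ => by simp only [Pi.add_apply, Pi.sub_apply]; ring
  rw [e, ← Real.sqrt_mul (Nat.cast_nonneg N), ← Real.sqrt_sq_eq_abs]
  refine Real.sqrt_le_sqrt ?_
  rw [← hG.nrm s]
  simp only [dot, ← sq]
  exact Finset.sum_mul_sq_le_sq_mul_sq Finset.univ _ _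

omit hG hl in
lemma ell_update (g : Fin m → Fin N → ℝ) (y : Fin N → ℝ) (a : Fin m) (z : Fin N → ℝ) :
    |ell x c U l (Function.update g a z) y - ell x c U l g y| ≤ 2 * lb lo hi := by
  refine (log_tt_sub _ _).trans ((pi_norm_le_iff_of_nonneg (by linarith [lb_nonneg (lo := lo) (hi := hi)])).2 fun s => ?_)
  simp only [Pi.sub_apply, zed, lp, Real.norm_eq_abs]
  rw [← Finset.add_sum_erase _ _ (Finset.mem_univ a),
    ← Finset.add_sum_erase _ (fun b => Real.log (U (dot (xn x s) (g b)))) (Finset.mem_univ a),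
    Finset.sum_congr (s₂ := Finset.univ.erase a) rfl fun b hb => by
      rw [Function.update_of_ne (Finset.ne_of_mem_erase hb)]]
  simp only [Function.update_self]
  refine le_trans (le_of_eq ?_) ((abs_sub (Real.log (U (dot (xn x s) z))) (Real.log (U (dot (xn x s) (g a))))).trans
    ((add_le_add (hU.abs_log _) (hU.abs_log _)).trans_eq (two_mul _).symm))
  congr 1; ring

omit hG hl in
lemma meas_ell (a : Fin N → ℝ) :
    Measurable fun p : (Fin m → Fin N → ℝ) × (Fin N → ℝ) => ell x c U l p.1 (p.2 + a) :=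
  Real.measurable_log.comp (gro_tt.1.measurable.comp ((continuous_zed x).measurable.comp
    (((measurable_lp (x := x) (c := c) (V := fun _ : Fin m => U) fun _ => hU).comp measurable_fst).prodMk
      (measurable_const.prodMk (measurable_snd.add_const a)))))

omit hl in
lemma ell_abs (g : Fin m → Fin N → ℝ) (a y : Fin N → ℝ) :
    |ell x c U l g (y + a)| ≤ Real.log (Fintype.card S) +
      (lpB c m lo hi + Fintype.card (Fin N) * |l| + √|l| * (|‖x‖| * l1 (y + a))) :=
  (abs_log_tt _).trans (add_le_add le_rfl (norm_zed_le (x := x) (xb x)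
    (fun s => abs_lp (x := x) (c := c) (fun _ : Fin m => hU) g s) (lpB_nonneg c m) (T := |l|) le_rfl (y + a)
    (c := lp x c (fun _ => U) g)))

/-- fourth moment given the planted configuration -/
lemma planted_four (s : S) (b : ℝ) (hb : |pmean x c U m l s - b| ≤ √(N:ℝ)) :
    ∫ g, ∫ y, (ell x c U l g (y + fun i => √l * x s i) - b) ^ 4 ∂gauss (Fin N)
      ∂Measure.pi (fun _ : Fin m => qU (xn x s) U) ≤ (N:ℝ) ^ 2 * K4 lo hi (m / N) l := by
  have := prob_qU hG hU s
  set P := Measure.pi fun _ : Fin m => qU (xn x s) U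
  have hN0 : (0:ℝ) < N := by exact_mod_cast hG.pos
  set a := fun i => √l * x s i
  set G := fun g : Fin m → Fin N → ℝ => ∫ y, ell x c U l g (y + a) ∂gauss (Fin N)
  set A := pmean x c U m l s
  have hy := fun g : Fin m → Fin N → ℝ => lip_four (F := fun y => ell x c U l g (y + a)) (L := √(l * N))
    (by positivity) (ell_lip hG hl g a)
  have hGm : Measurable G := ((meas_ell (m := m) hU a).stronglyMeasurable.integral_prod_right' (ν := gauss (Fin N))).measurable
  set C := Real.log (Fintype.card S) + (lpB c m lo hi + Fintype.card (Fin N) * |l|) +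
    √|l| * |‖x‖| * ∫ y : Fin N → ℝ, l1 (y + a) ∂gauss (Fin N)
  have il : Integrable (fun y : Fin N → ℝ => l1 (y + a)) (gauss (Fin N)) := by
    refine integrable_of_bound (C := 1 + ∑ i, |a i|) (M := 1) (by unfold l1; fun_prop) fun y => ?_
    rw [abs_of_nonneg (Vale.Agent.P150.l1_nonneg _), one_mul]
    have h1 : l1 (y + a) ≤ l1 y + ∑ i, |a i| := by
      rw [l1, l1, ← Finset.sum_add_distrib]; exact Finset.sum_le_sum fun i _ => abs_add_le _ _
    have h0 : 0 ≤ ∑ i, |a i| := Finset.sum_nonneg fun i _ => abs_nonneg _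
    linarith [Real.add_one_le_exp (l1 y), le_mul_of_one_le_right h0 (Real.one_le_exp (Vale.Agent.P150.l1_nonneg y)),
      Real.exp_pos (l1 y)]
  have hGb : ∀ g, |G g| ≤ C := fun g => by
    have ib := ((integrable_const (Real.log (Fintype.card S))).add
      ((integrable_const (lpB c m lo hi + Fintype.card (Fin N) * |l|)).add ((il.const_mul |‖x‖|).const_mul √|l|)))
    refine abs_integral_le_integral_abs.trans ((integral_mono (hy g).1.abs ib fun y => ell_abs hG hU g a y).trans_eq ?_)
    rw [integral_add' (integrable_const _) ((integrable_const _).add ((il.const_mul _).const_mul _)),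
      integral_add' (integrable_const _) ((il.const_mul _).const_mul _), integral_const_mul, integral_const_mul]
    simp [C]; ring
  -- bounded differences in the patterns
  obtain ⟨F, hF⟩ : ∃ F : (Fin m → Fin N → ℝ) → ℝ, F = G := ⟨_, rfl⟩
  have b1 : ∀ g, |F g| ≤ C + ∑ b : Fin m, (fun _ : Fin N → ℝ => (0:ℝ)) (g b) := fun g => by simpa [hF] using hGb g
  have b2 : ∀ g b z, |F (Function.update g b z) - F g| ≤
      |(fun _ _ : Fin N → ℝ => 2 * lb lo hi) (g b) z| := fun g b z => by
    rw [hF]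
    simp only [G]
    rw [← integral_sub (hy _).1 (hy _).1]
    refine abs_integral_le_integral_abs.trans ((integral_mono ((hy _).1.sub (hy _).1).abs
      (integrable_const (2 * lb lo hi)) fun y => ell_update hU g (y + a) b z).trans ?_)
    simpa using le_abs_self _
  have hmgf : ∀ t, Integrable (fun g => Real.exp (t * (G g - A))) P ∧
      ∫ g, Real.exp (t * (G g - A)) ∂P ≤ Real.exp (m * (2 * (t * lb lo hi) ^ 2)) := fun t => by
    have key := mgf_le (P := qU (xn x s) U) (d := fun _ _ => 2 * lb lo hi) (h := fun _ => 0)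
      (C := C) (K := 2 * (t * lb lo hi) ^ 2) (t := t) measurable_const (fun c => integrable_const _) measurable_const
      (by
        rw [lintegral_const, measure_univ, mul_one]
        refine ENNReal.ofReal_le_ofReal ((Real.cosh_le_exp_half_sq _).trans (Real.exp_le_exp.2 (le_of_eq ?_)))
        ring)
      m F (hF ▸ hGm) b1 b2
    rw [hF] at key
    exact key
  have hr : 0 < √(N:ℝ) := Real.sqrt_pos.2 hN0
  have hr4 : √(N:ℝ) ^ 4 = (N:ℝ) ^ 2 := by
    rw [show √(N:ℝ) ^ 4 = (√(N:ℝ) ^ 2) ^ 2 by ring, Real.sq_sqrt hN0.le]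
  obtain ⟨p1, p2⟩ := hmgf (1 / √(N:ℝ))
  obtain ⟨n1, n2⟩ := hmgf (-1 / √(N:ℝ))
  have hG4 : ∀ g, (G g - A) ^ 4 ≤ 24 * (N:ℝ) ^ 2 *
      (Real.exp (1 / √(N:ℝ) * (G g - A)) + Real.exp (-1 / √(N:ℝ) * (G g - A))) := fun g => by
    have h := pow_four_le (x := G g - A) hr
    rwa [hr4, show -((G g - A) / √(N:ℝ)) = -1 / √(N:ℝ) * (G g - A) by ring,
      show (G g - A) / √(N:ℝ) = 1 / √(N:ℝ) * (G g - A) by ring] at h
  have ee : ∀ σ : ℝ, σ ^ 2 = 1 → (m:ℝ) * (2 * (σ / √(N:ℝ) * lb lo hi) ^ 2) = 2 * (m / N) * lb lo hi ^ 2 := fun σ hσ => by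
    rw [mul_pow, div_pow, hσ, Real.sq_sqrt hN0.le]; ring
  rw [ee 1 (one_pow 2)] at p2
  rw [ee (-1) (by norm_num)] at n2
  have hD : (A - b) ^ 4 ≤ (N:ℝ) ^ 2 := by
    rw [← hr4, ← Even.pow_abs (show Even 4 by decide)]
    exact pow_le_pow_left₀ (abs_nonneg _) hb 4
  have h27 : ∀ u v w : ℝ, (u + v + w) ^ 4 ≤ 27 * (u ^ 4 + v ^ 4 + w ^ 4) := fun u v w => by
    nlinarith [sq_nonneg (u - v), sq_nonneg (v - w), sq_nonneg (u - w), sq_nonneg (u ^ 2 - v ^ 2),
      sq_nonneg (v ^ 2 - w ^ 2), sq_nonneg (u ^ 2 - w ^ 2), sq_nonneg (u + v + w), sq_nonneg (u * v - v * w),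
      sq_nonneg (u * v - u * w), sq_nonneg (u * w - v * w)]
  set E := fun g => Real.exp (1 / √(N:ℝ) * (G g - A)) + Real.exp (-1 / √(N:ℝ) * (G g - A))
  have iE : Integrable E P := p1.add n1
  have iR := ((integrable_const (27 * (C4 * √(l * N) ^ 4))).add ((iE.const_mul (24 * (N:ℝ) ^ 2)).const_mul 27)).add
    (integrable_const (27 * (N:ℝ) ^ 2) (μ := P))
  refine (integral_mono_of_nonneg (Eventually.of_forall fun g => integral_nonneg fun y => by positivity) iR
    (Eventually.of_forall fun g => ?_)).trans ?_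
  · obtain ⟨i1, i4, h4⟩ := hy g
    have i3 := ((i4.const_mul 27).add (integrable_const (27 * (G g - A) ^ 4))).add (integrable_const (27 * (A - b) ^ 4))
    refine (integral_mono_of_nonneg (Eventually.of_forall fun y => by positivity) i3
      (Eventually.of_forall fun y => ?_)).trans ?_
    · have := h27 (ell x c U l g (y + a) - G g) (G g - A) (A - b)
      rw [show ell x c U l g (y + a) - G g + (G g - A) + (A - b) = ell x c U l g (y + a) - b by ring] at this
      simp only [Pi.add_apply]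
      linarith
    · rw [integral_add' ((i4.const_mul _).add (integrable_const _)) (integrable_const _),
        integral_add' (i4.const_mul _) (integrable_const _), integral_const_mul]
      simp only [integral_const, probReal_univ, one_smul, Pi.add_apply]
      linarith [hG4 g]
  · rw [integral_add' ((integrable_const _).add ((iE.const_mul _).const_mul _)) (integrable_const _),
      integral_add' (integrable_const _) ((iE.const_mul _).const_mul _), integral_const_mul, integral_const_mul]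
    simp only [integral_const, probReal_univ, one_smul, E, integral_const_mul]
    rw [integral_add p1 n1]
    have e : √(l * N) ^ 4 = l ^ 2 * (N:ℝ) ^ 2 := by
      rw [show √(l * N) ^ 4 = (√(l * N) ^ 2) ^ 2 by ring, Real.sq_sqrt (by positivity)]; ring
    rw [e, K4]
    have := mul_le_mul_of_nonneg_left (add_le_add p2 n2) (show 0 ≤ 27 * (24 * (N:ℝ) ^ 2) by positivity)
    linarith

/-- fourth moment of `log Z` -/
lemma moment_four (hsp : Spread x c U m l) :
    avm x c (fun _ : Fin m => U) (fun z => tt z * (Real.log (tt z) - avm x c (fun _ : Fin m => U) ent l) ^ 4) l ≤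
      (N:ℝ) ^ 2 * K4 lo hi (m / N) l := by
  set a := avm x c (fun _ : Fin m => U) ent l
  have ha : a = ∑ s, Real.exp (c s) * pmean x c U m l s := avm_planted hG hU hl (G := fun u => u) gro_ent
  rw [avm_planted hG hU hl (G := fun u => (u - a) ^ 4) (gro_tt.mul ((gro_log_tt.sub (Gro.const a)).pow 4))]
  have hb : ∀ s, |pmean x c U m l s - a| ≤ √(N:ℝ) := fun s => by
    have e : pmean x c U m l s - a = ∑ t, Real.exp (c t) * (pmean x c U m l s - pmean x c U m l t) := by
      simp only [mul_sub, Finset.sum_sub_distrib, ← Finset.sum_mul, hG.mass, one_mul, ← ha]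
    rw [e]
    refine (Finset.abs_sum_le_sum_abs _ _).trans ?_
    refine (Finset.sum_le_sum fun t _ => show _ ≤ Real.exp (c t) * √(N:ℝ) from ?_).trans_eq
      (by rw [← Finset.sum_mul, hG.mass, one_mul])
    rw [abs_mul, Real.abs_exp]
    exact mul_le_mul_of_nonneg_left (hsp s t) (Real.exp_pos _).le
  refine (Finset.sum_le_sum fun s _ => mul_le_mul_of_nonneg_left (planted_four hG hU hl s a (hb s))
    (Real.exp_pos (c s)).le).trans_eq ?_
  rw [← Finset.sum_mul, hG.mass, one_mul]

end Moments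

/-- an antiderivative dominating the overlap fluctuation -/
noncomputable def pot4 (x : S → Fin N → ℝ) (c : S → ℝ) {m : ℕ} (U : ℝ → ℝ) (η K l : ℝ) : ℝ :=
  2 * (avm x c (fun _ : Fin m => U) (ovl x) l -
      avm x c (fun _ : Fin m => U) ent l * ovm x c (fun _ : Fin m => U) l) +
    2 * η * N * ovm x c (fun _ : Fin m => U) l + 2 * K * N / η ^ 3 * l

lemma dfl_nonneg (hG : Geo x c) {U : ℝ → ℝ} (hU : Pw U lo hi) {l : ℝ} (hl : 0 ≤ l) :
    0 ≤ dfl x c (fun _ : Fin m => U) l := by
  set V : Fin m → ℝ → ℝ := fun _ => U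
  have hV : ∀ a, Pw (V a) lo hi := fun _ => hU
  set A := ovm x c V l
  have gr : Gro (fun z => r2 x z * (tt z)⁻¹) := gro_r2.mul gro_inv_tt
  have h : avm x c V (fun z => 2 * A * ov1 x z + (-A ^ 2) * tt z) l ≤ avm x c V (fun z => r2 x z * (tt z)⁻¹) l := by
    refine avm_mono (x := x) (c := c) hV (((Gro.const _).mul gro_ov1).add ((Gro.const _).mul gro_tt)) gr (fun z => ?_) l
    have hL := tt_pos z
    have h1 := qf_sq_le (x := x) z
    have e2 := xc_nonneg (x := x) z
    have hxc : 0 ≤ r2 x z * (tt z)⁻¹ - qf x z ^ 2 * (tt z)⁻¹ ^ 3 := by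
      have : r2 x z * (tt z)⁻¹ - qf x z ^ 2 * (tt z)⁻¹ ^ 3 =
          xc x z + 2 * (p2 x z * tt z - qf x z ^ 2) * (tt z)⁻¹ ^ 3 := by
        rw [xc]; field_simp; ring
      rw [this]
      have := mul_nonneg (show 0 ≤ 2 * (p2 x z * tt z - qf x z ^ 2) by linarith)
        (show 0 ≤ (tt z)⁻¹ ^ 3 by positivity)
      linarith
    have : 0 ≤ (qf x z * (tt z)⁻¹ - A * tt z) ^ 2 * (tt z)⁻¹ := by positivity
    have e : (qf x z * (tt z)⁻¹ - A * tt z) ^ 2 * (tt z)⁻¹ =
        qf x z ^ 2 * (tt z)⁻¹ ^ 3 - (2 * A * ov1 x z + (-A ^ 2) * tt z) := by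
      rw [ov1]; field_simp; ring
    linarith
  rw [avm_add hV ((Gro.const _).mul gro_ov1) ((Gro.const _).mul gro_tt), avm_smul, avm_smul,
    avm_one hG hV l hl] at h
  rw [dfl]
  show 0 ≤ avm x c V (fun z => r2 x z * (tt z)⁻¹) l - A ^ 2
  rw [show avm x c V (ov1 x) l = A from rfl] at h
  nlinarith [h]

section Pot4

variable (hG : Geo x c) {U : ℝ → ℝ} (hU : Pw U lo hi)
include hG hU

lemma continuous_pot4 (η K : ℝ) : Continuous (pot4 x c (m := m) U η K) := by
  have h : ∀ {H : (S → ℝ) → ℝ}, Gro H → Continuous (avm x c (fun _ : Fin m => U) H) :=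
    fun hH => continuous_avm (fun _ => hU) hH
  exact ((continuous_const.mul ((h gro_ovl).sub ((h gro_ent).mul (h gro_ov1)))).add
    (continuous_const.mul (h gro_ov1))).add (continuous_const.mul continuous_id)

lemma hasDeriv_pot4 {η K l : ℝ} (hη : 0 < η) (hl : 0 < l)
    (hsp : Spread x c U m l) (hK : K4 lo hi (m / N) l ≤ K) :
    ∃ d, HasDerivAt (pot4 x c (m := m) U η K) d l ∧ 0 ≤ d ∧ dfl x c (fun _ : Fin m => U) l ≤ d := by
  set V : Fin m → ℝ → ℝ := fun _ => U
  have hV : ∀ a, Pw (V a) lo hi := fun _ => hU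
  have hc := measurable_lp (x := x) (c := c) hV
  have hcb := fun g s => abs_lp (x := x) (c := c) hV g s
  have hN0 : (0:ℝ) < N := by exact_mod_cast hG.pos
  set a := avm x c V ent l
  set A := ovm x c V l
  set k2 := fun z => r2 x z * ((Real.log (tt z) + 1) * (tt z)⁻¹) -
        2 * p2 x z * (Real.log (tt z) * (tt z)⁻¹ ^ 2) +
        qf x z ^ 2 * ((2 * Real.log (tt z) - 1) * (tt z)⁻¹ ^ 3) / 2
  have d1 := d_ovl (xb x) hG.self hc (lpB_nonneg c m) hcb hl (μ := pg N m)
  have d2 := d_ent (xb x) hG.self hc (lpB_nonneg c m) hcb hl (μ := pg N m)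
  have d3 := d_ov1 (xb x) hG.self hc (lpB_nonneg c m) hcb hl (μ := pg N m)
  have hd := ((((d1.sub (d2.mul d3)).const_mul 2).add (d3.const_mul (2 * η * (N:ℝ)))).add
    ((hasDerivAt_id l).const_mul (2 * K * N / η ^ 3)))
  set X := avm x c V (xc x) l
  have hX : 0 ≤ X := integral_nonneg fun g => integral_nonneg fun y => xc_nonneg _
  have gk2 : Gro k2 := ((gro_r2.mul ((gro_log_tt.add (Gro.const 1)).mul gro_inv_tt)).sub
    (((Gro.const 2).mul gro_p2).mul (gro_log_tt.mul (gro_inv_tt.pow 2)))).add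
    (by simpa [mul_div_assoc, mul_comm, mul_left_comm, div_eq_mul_inv] using
      (Gro.const (1/2:ℝ)).mul ((gro_qf (x := x)).pow 2 |>.mul
        ((((Gro.const 2).mul gro_log_tt).sub (Gro.const 1)).mul (gro_inv_tt.pow 3))))
  set g4 := fun z : S → ℝ => tt z * (Real.log (tt z) - a) ^ 4
  have gg4 : Gro g4 := gro_tt.mul ((gro_log_tt.sub (Gro.const a)).pow 4)
  have m4 : avm x c V g4 l ≤ (N:ℝ) ^ 2 * K4 lo hi (m / N) l := moment_four hG hU hl.le hsp
  set cst := 2 * ((N:ℝ) ^ 2 / (η * N) ^ 3)
  have hc0 : 0 ≤ cst := by positivity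
  have hb : avm x c V (fun z => r2 x z * (tt z)⁻¹) l - 2 * avm x c V k2 l + 2 * a * X ≤
      2 * (η * N) * X + cst * avm x c V g4 l := by
    have gr : Gro (fun z : S → ℝ => r2 x z * (tt z)⁻¹) := gro_r2.mul gro_inv_tt
    have h := avm_mono (x := x) (c := c) hV ((gr.add ((Gro.const (-2)).mul gk2)).add ((Gro.const (2 * a)).mul (gro_xc (x := x))))
      (((Gro.const (2 * (η * N))).mul (gro_xc (x := x))).add ((Gro.const cst).mul gg4)) (fun z => ?_) l
    · rw [avm_add hV (gr.add ((Gro.const (-2)).mul gk2)) ((Gro.const (2 * a)).mul (gro_xc (x := x))),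
        avm_add hV gr ((Gro.const (-2)).mul gk2), avm_smul, avm_smul,
        avm_add hV ((Gro.const (2 * (η * N))).mul (gro_xc (x := x))) ((Gro.const cst).mul gg4), avm_smul, avm_smul] at h
      linarith
    · have hp := conc_point (x := x) a z
      have hx0 := xc_nonneg (x := x) z
      have hx1 := (xc_le (x := x) z).trans (r2_le hG z)
      have hη' : 0 < η * N := mul_pos hη hN0
      set d := |Real.log (tt z) - a|
      have hkey : xc x z * d ≤ η * N * xc x z + (N:ℝ) ^ 2 * tt z * (d ^ 4 / (η * N) ^ 3) := by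
        rcases le_or_gt d (η * N) with h | h
        · linarith [mul_le_mul_of_nonneg_left h hx0,
            mul_nonneg (mul_nonneg (sq_nonneg (N:ℝ)) (tt_pos z).le) (show 0 ≤ d ^ 4 / (η * N) ^ 3 by positivity)]
        · have h4 : d ≤ d ^ 4 / (η * N) ^ 3 := by
            rw [le_div_iff₀ (by positivity), show d ^ 4 = d * d ^ 3 by ring]
            exact mul_le_mul_of_nonneg_left (pow_le_pow_left₀ hη'.le h.le 3) (abs_nonneg _)
          linarith [mul_le_mul hx1 h4 (abs_nonneg _) (mul_nonneg (sq_nonneg (N:ℝ)) (tt_pos z).le), mul_nonneg hη'.le hx0]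
      have e4 : d ^ 4 = (Real.log (tt z) - a) ^ 4 := by
        simp only [d]; rw [pow_abs]; exact abs_of_nonneg (by positivity)
      simp only [g4, cst, ← e4]
      have : (N:ℝ) ^ 2 * tt z * (d ^ 4 / (η * N) ^ 3) = (N:ℝ) ^ 2 / (η * N) ^ 3 * (tt z * d ^ 4) := by ring
      simp only [k2]
      linarith
  have hK' : cst * avm x c V g4 l ≤ 2 * K * N / η ^ 3 := by
    refine (mul_le_mul_of_nonneg_left m4 hc0).trans ?_
    have : cst * ((N:ℝ) ^ 2 * K4 lo hi (m / N) l) = 2 * K4 lo hi (m / N) l * N / η ^ 3 := by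
      simp only [cst]; field_simp
    rw [this]; gcongr
  refine ⟨_, hd.congr_of_eventuallyEq (Eventually.of_forall fun t => rfl), ?_, ?_⟩
  all_goals
    have hdfl : 0 ≤ dfl x c V l := dfl_nonneg hG hU hl.le
    simp only [mul_one]
    simp only [dfl, ovm, avm] at hdfl hb hK' ⊢
    simp only [k2, a, A, X, avm] at *
    linarith

lemma pot4_range {η K l : ℝ} (hη : 0 ≤ η) (hl : 0 ≤ l)
    (hsp : Spread x c U m l) (hK : K4 lo hi (m / N) l ≤ K) :
    |pot4 x c (m := m) U η K l| ≤ 2 * N * (1 + (1 + K) * √(N:ℝ)) + 2 * η * (N:ℝ) ^ 2 + 2 * K * N / |η| ^ 3 * l := by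
  set V : Fin m → ℝ → ℝ := fun _ => U
  have hV : ∀ a, Pw (V a) lo hi := fun _ => hU
  have hN0 : (0:ℝ) < N := by exact_mod_cast hG.pos
  set a := avm x c V ent l
  have hA := ovm_mem hG hV hl
  set r := √(N:ℝ)
  have hr : 0 < r := Real.sqrt_pos.2 hN0
  have hr2 : r ^ 2 = N := Real.sq_sqrt hN0.le
  set g4 := fun z : S → ℝ => tt z * (Real.log (tt z) - a) ^ 4
  have gg4 : Gro g4 := gro_tt.mul ((gro_log_tt.sub (Gro.const a)).pow 4)
  have gR : Gro (fun z => (N:ℝ) * (1 + r) * tt z + (N:ℝ) / r ^ 3 * g4 z) :=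
    ((Gro.const _).mul gro_tt).add ((Gro.const _).mul gg4)
  have gL : Gro (fun z => ovl x z + (-a) * ov1 x z) := gro_ovl.add ((Gro.const _).mul gro_ov1)
  have hpt : ∀ z, |ovl x z + (-a) * ov1 x z| ≤ (N:ℝ) * (1 + r) * tt z + (N:ℝ) / r ^ 3 * g4 z := by
    intro z
    have e : ovl x z + (-a) * ov1 x z = ov1 x z * ((Real.log (tt z) - a) + 1) := by
      rw [ovl, ov1]; ring
    set d := Real.log (tt z) - a
    have hd : |d| ≤ r + d ^ 4 / r ^ 3 := by
      rcases le_or_gt |d| r with h | h
      · linarith [show 0 ≤ d ^ 4 / r ^ 3 by positivity]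
      · have h4 : |d| ≤ |d| ^ 4 / r ^ 3 := by
          rw [le_div_iff₀ (by positivity), show |d| ^ 4 = |d| * |d| ^ 3 by ring]
          exact mul_le_mul_of_nonneg_left (pow_le_pow_left₀ hr.le h.le 3) (abs_nonneg _)
        rw [pow_abs, abs_of_nonneg (show 0 ≤ d ^ 4 by positivity)] at h4
        linarith
    rw [e, abs_mul, abs_of_nonneg (ov1_nonneg hG z)]
    have h1 := abs_add_le d 1
    rw [abs_one] at h1
    refine (mul_le_mul (ov1_le hG z) (h1.trans (add_le_add hd le_rfl)) (abs_nonneg _)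
      (mul_nonneg hN0.le (tt_pos z).le)).trans (le_of_eq ?_)
    simp only [g4]; ring
  have gnR : Gro (fun z => (-1:ℝ) * ((N:ℝ) * (1 + r) * tt z + (N:ℝ) / r ^ 3 * g4 z)) := (Gro.const _).mul gR
  have hb : |avm x c V (fun z => ovl x z + (-a) * ov1 x z) l| ≤
      avm x c V (fun z => (N:ℝ) * (1 + r) * tt z + (N:ℝ) / r ^ 3 * g4 z) l := by
    rw [abs_le]
    constructor
    · have := avm_mono (x := x) (c := c) hV gnR gL (fun z => by linarith [neg_abs_le (ovl x z + (-a) * ov1 x z), hpt z]) l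
      rw [avm_smul] at this
      linarith
    · exact avm_mono (x := x) (c := c) hV gL gR (fun z => (le_abs_self _).trans (hpt z)) l
  rw [avm_add hV gro_ovl ((Gro.const _).mul gro_ov1), avm_smul, avm_add hV ((Gro.const _).mul gro_tt)
    ((Gro.const _).mul gg4), avm_smul, avm_smul, avm_one hG hV l hl] at hb
  have m4 : avm x c V g4 l ≤ (N:ℝ) ^ 2 * K := by
    exact (moment_four hG hU hl hsp).trans (mul_le_mul_of_nonneg_left hK (sq_nonneg _))
  have hbd : |avm x c V (ovl x) l - a * ovm x c V l| ≤ N * (1 + (1 + K) * r) := by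
    have e : avm x c V (ovl x) l - a * ovm x c V l = avm x c V (ovl x) l + (-a) * avm x c V (ov1 x) l := by
      rw [ovm]; ring
    rw [e]
    refine hb.trans ((add_le_add le_rfl (mul_le_mul_of_nonneg_left m4 (by positivity))).trans (le_of_eq ?_))
    rw [← hr2]; field_simp; ring
  unfold pot4
  refine (abs_add_le _ _).trans (add_le_add ((abs_add_le _ _).trans (add_le_add ?_ ?_)) (le_of_eq ?_))
  · rw [abs_mul, abs_two]
    linarith [hbd]
  · rw [abs_of_nonneg (by have := hA.1; positivity), sq, ← mul_assoc]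
    exact mul_le_mul_of_nonneg_left hA.2 (by positivity)
  · have hK0 : 0 ≤ K := K4_nonneg.trans hK
    rw [abs_of_nonneg (by positivity), abs_of_nonneg hη]

end Pot4

end Vale.Agent.P157.Gen
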