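import Vale.Agent.P157.Gen.Path
import Vale.Agent.P157.Teach.Equiv

/-! The annealed gap of a finite space and its planted free entropy. -/

open MeasureTheory ProbabilityTheory Set Filter
open scoped Topology
open Vale.Agent.P150 (gauss dot)
open Vale.Agent.P157.Teach hiding avm avm_planted avm_one avm_zero ke lp lpB lpB_nonneg abs_lp measurable_lp kk ell qU prob_qU lz meas_lz abs_lz null_mgf planted_eq gap_bounds jensen_exp ell_zero

namespace Vale.Agent.P157.Gen

variable {N m : ℕ} {S : Type} [Fintype S] [Nonempty S] {lo hi : ℝ} {x : S → Fin N → ℝ} {c : S → ℝ} {U : ℝ → ℝ}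

/-- `log Z` without side channel -/
noncomputable def lz (x : S → Fin N → ℝ) (c : S → ℝ) (U : ℝ → ℝ) (g : Fin m → Fin N → ℝ) : ℝ := ell x c U 0 g 0

/-- the annealed gap per site -/
noncomputable def gapS (x : S → Fin N → ℝ) (c : S → ℝ) (U : ℝ → ℝ) (m : ℕ) : ℝ :=
  -(∫ g, lz x c U (m := m) g ∂pg N m) / N

omit [Nonempty S] in
lemma ell_zero (g : Fin m → Fin N → ℝ) (y : Fin N → ℝ) : ell x c U 0 g y = lz x c U g := by
  simp [lz, ell, zed_zero]

omit [Nonempty S] in
lemma avm_zero (V : Fin m → ℝ → ℝ) (H : (S → ℝ) → ℝ) : avm x c V H 0 = ∫ g, H (lp x c V g) ∂pg N m := by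
  simp [avm, av, zed_zero]

section Bounds

variable (hG : Geo x c) (hU : Pw U lo hi)
include hG hU

omit hG in
lemma meas_lz : Measurable fun g : Fin m → Fin N → ℝ => lz x c U g := by
  have h := (meas_ell (x := x) (c := c) (l := 0) (m := m) hU 0).comp (measurable_id.prodMk (measurable_const (a := (0 : Fin N → ℝ))))
  simpa [Function.comp_def, ell_zero] using h

lemma abs_lz (g : Fin m → Fin N → ℝ) : |lz x c U g| ≤ Real.log (Fintype.card S) + lpB c m lo hi := by
  have h := ell_abs (l := 0) hG hU g 0 0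
  simpa [ell_zero, Vale.Agent.P150.l1] using h

/-- exponential moments for independent patterns of any law -/
lemma lz_mgf (P : Measure (Fin N → ℝ)) [IsProbabilityMeasure P] (t : ℝ) :
    Integrable (fun g => Real.exp (t * lz x c U g)) (Measure.pi fun _ : Fin m => P) ∧
      Integrable (fun g => lz x c U g) (Measure.pi fun _ : Fin m => P) ∧
      ∫ g, Real.exp (t * lz x c U g) ∂Measure.pi (fun _ : Fin m => P) ≤
        Real.exp (t * (∫ g, lz x c U g ∂Measure.pi (fun _ : Fin m => P)) + m * (2 * (t * lb lo hi) ^ 2)) := by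
  obtain ⟨F, hF⟩ : ∃ F : (Fin m → Fin N → ℝ) → ℝ, F = fun g => lz x c U g := ⟨_, rfl⟩
  have b1 : ∀ g, |F g| ≤ (Real.log (Fintype.card S) + lpB c m lo hi) +
      ∑ a : Fin m, (fun _ : Fin N → ℝ => (0:ℝ)) (g a) := fun g => by simpa [hF] using abs_lz hG hU g
  have b2 : ∀ g a z, |F (Function.update g a z) - F g| ≤
      |(fun _ _ : Fin N → ℝ => 2 * lb lo hi) (g a) z| := fun g a z => by
    have h := ell_update (x := x) (c := c) (l := 0) hU g 0 a z
    rw [ell_zero, ell_zero] at h
    rw [hF]
    exact h.trans (le_abs_self _)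
  have key := mgf_le (P := P) (d := fun _ _ => 2 * lb lo hi) (h := fun _ => 0)
    (C := Real.log (Fintype.card S) + lpB c m lo hi) (K := 2 * (t * lb lo hi) ^ 2) (t := t) measurable_const
    (fun c => integrable_const _) measurable_const
    (by
      rw [lintegral_const, measure_univ, mul_one]
      refine ENNReal.ofReal_le_ofReal ((Real.cosh_le_exp_half_sq _).trans (Real.exp_le_exp.2 (le_of_eq ?_)))
      ring)
    m F (hF ▸ meas_lz hU) b1 b2
  subst hF
  obtain ⟨k1, k2⟩ := key
  set a := ∫ g, lz x c U g ∂Measure.pi (fun _ : Fin m => P)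
  have e : ∀ g : Fin m → Fin N → ℝ, Real.exp (t * lz x c U g) =
      Real.exp (t * a) * Real.exp (t * (lz x c U g - a)) := fun g => by rw [← Real.exp_add]; ring_nf
  refine ⟨?_, Integrable.of_bound (meas_lz hU).aestronglyMeasurable _ (Eventually.of_forall fun g => by
    rw [Real.norm_eq_abs]; exact abs_lz hG hU g), ?_⟩
  · rw [show (fun g : Fin m → Fin N → ℝ => Real.exp (t * lz x c U g)) = _ from funext e]
    exact k1.const_mul _
  · rw [show (fun g : Fin m → Fin N → ℝ => Real.exp (t * lz x c U g)) = _ from funext e, integral_const_mul, Real.exp_add]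
    exact mul_le_mul_of_nonneg_left k2 (Real.exp_pos _).le

/-- the mixture of planted laws is the size-biased null law -/
lemma planted_eq (k : ℝ) :
    ∑ s, Real.exp (c s) * ∫ g, Real.exp (k * lz x c U g) ∂Measure.pi (fun _ : Fin m => qU (xn x s) U) =
      ∫ g, Real.exp ((k + 1) * lz x c U g) ∂pg N m := by
  have hg : Gro fun z : S → ℝ => tt z * Real.exp (k * Real.log (tt z)) := by
    refine gro_tt.mul ⟨Real.continuous_exp.comp (continuous_const.mul gro_log_tt.1),
      Real.exp (|k| * Real.log (Fintype.card S)), |k|, (Real.exp_pos _).le, abs_nonneg _, fun z => ?_⟩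
    rw [Real.abs_exp, ← Real.exp_add, Real.exp_le_exp, ← mul_add]
    exact (le_abs_self _).trans ((abs_mul _ _).trans_le (mul_le_mul_of_nonneg_left (abs_log_tt z) (abs_nonneg k)))
  have h := avm_planted (m := m) hG hU (l := 0) le_rfl (G := fun u => Real.exp (k * u)) hg
  rw [avm_zero] at h
  simp only [ell_zero, integral_const, probReal_univ, one_smul] at h
  rw [← h]
  refine integral_congr_ae (Eventually.of_forall fun g => ?_)
  show tt _ * Real.exp (k * Real.log (tt _)) = Real.exp ((k + 1) * lz x c U g)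
  rw [add_mul, one_mul, Real.exp_add, lz, ell, zed_zero, Real.exp_log (tt_pos _)]
  ring

lemma kk_zero_eq : (N:ℝ) * kk x c U m 0 = ∑ s, Real.exp (c s) * pmean x c U m 0 s := by
  have hN0 : (0:ℝ) < N := by exact_mod_cast hG.pos
  rw [kk, ke, mul_div_cancel₀ _ hN0.ne']
  exact avm_planted (m := m) hG hU le_rfl (G := fun u => u) gro_ent

/-- quantitative equivalence -/
lemma gap_bounds {α : ℝ} (hm : (m:ℝ) ≤ α * N) {s : ℝ} :
    s * gapS x c U m ≤ (1 - s) * kk x c U m 0 + 2 * α * lb lo hi ^ 2 * s ^ 2 ∧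
      (0 ≤ s → Spread x c U m 0 →
        s * kk x c U m 0 ≤ (1 - s) * gapS x c U m + 2 * α * lb lo hi ^ 2 * s ^ 2 + s * (√(N:ℝ))⁻¹) := by
  have hN0 : (0:ℝ) < N := by exact_mod_cast hG.pos
  have herr : (m:ℝ) * (2 * (s * lb lo hi) ^ 2) ≤ N * (2 * α * lb lo hi ^ 2 * s ^ 2) := by
    have := mul_le_mul_of_nonneg_right hm (show 0 ≤ 2 * (s * lb lo hi) ^ 2 by positivity)
    linarith
  have := fun u => prob_qU hG hU u
  set Q := fun u => Measure.pi (fun _ : Fin m => qU (xn x u) U)
  set A := fun u => pmean x c U m 0 u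
  have eA : ∀ u, ∫ g, lz x c U g ∂Q u = A u := fun u => by
    simp only [A, Q, pmean, ell_zero, integral_const, probReal_univ, one_smul]
  have ek := kk_zero_eq (m := m) hG hU
  set a := (N:ℝ) * kk x c U m 0
  have e0 : ∫ g, lz x c U g ∂pg N m = -(N:ℝ) * gapS x c U m := by rw [gapS]; field_simp
  constructor
  · have j : Real.exp ((s - 1) * a) ≤
        ∑ u, Real.exp (c u) * ∫ g, Real.exp ((s - 1) * lz x c U g) ∂Q u := by
      calc Real.exp ((s - 1) * a) =
            ∑ u, Real.exp (c u) * (Real.exp ((s - 1) * a) * (1 + (s - 1) * (A u - a))) := by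
            simp only [mul_sub, mul_add, mul_one, Finset.sum_add_distrib, Finset.sum_sub_distrib]
            rw [← Finset.sum_mul, hG.mass, show ∑ u, Real.exp (c u) * (Real.exp ((s - 1) * a) * ((s - 1) * A u)) =
              Real.exp ((s - 1) * a) * (s - 1) * ∑ u, Real.exp (c u) * A u by
                rw [Finset.mul_sum]; exact Finset.sum_congr rfl fun u _ => by ring,
              ← Finset.sum_mul, hG.mass, ← ek]
            ring
        _ ≤ _ := Finset.sum_le_sum fun u _ => mul_le_mul_of_nonneg_left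
            (((exp_line _ _ a)).trans (by
              rw [← eA]
              obtain ⟨i1, i2, -⟩ := lz_mgf (m := m) hG hU (qU (xn x u) U) (s - 1)
              exact Teach.jensen_exp Nat.one_pos hU (s - 1) i2 i1)) (Real.exp_pos _).le
    rw [planted_eq hG hU, sub_add_cancel] at j
    have h := j.trans (lz_mgf hG hU (gauss (Fin N)) s).2.2
    change _ ≤ Real.exp (s * (∫ g, lz x c U g ∂pg N m) + _) at h
    rw [e0, Real.exp_le_exp] at h
    refine le_of_mul_le_mul_left ?_ hN0
    simp only [a] at h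
    linarith
  · intro hs hsp
    obtain ⟨i1, i2, -⟩ := lz_mgf (m := m) hG hU (gauss (Fin N)) (1 - s)
    have j := Teach.jensen_exp Nat.one_pos hU (1 - s) i2 i1
    change Real.exp ((1 - s) * ∫ g, lz x c U g ∂pg N m) ≤ ∫ g, _ ∂pg N m at j
    rw [e0] at j
    have hA : ∀ u, a - √(N:ℝ) ≤ A u := fun u => by
      have : a ≤ ∑ v, Real.exp (c v) * (A u + √(N:ℝ)) := by
        rw [ek]
        refine Finset.sum_le_sum fun v _ => mul_le_mul_of_nonneg_left ?_ (Real.exp_pos _).le
        linarith [(abs_le.1 (hsp v u)).2]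
      rw [← Finset.sum_mul, hG.mass, one_mul] at this
      linarith
    have h2 : ∑ u, Real.exp (c u) * ∫ g, Real.exp (-s * lz x c U g) ∂Q u ≤
        Real.exp (-s * (a - √(N:ℝ)) + m * (2 * (s * lb lo hi) ^ 2)) := by
      refine (Finset.sum_le_sum fun u _ => show _ ≤ Real.exp (c u) * _ from ?_).trans_eq
        (by rw [← Finset.sum_mul, hG.mass, one_mul])
      refine mul_le_mul_of_nonneg_left ((lz_mgf hG hU (qU (xn x u) U) (-s)).2.2.trans ?_) (Real.exp_pos _).le
      rw [show ∫ g, lz x c U g ∂Measure.pi (fun _ : Fin m => qU (xn x u) U) = A u from eA u,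
        show (-s * lb lo hi) ^ 2 = (s * lb lo hi) ^ 2 by ring, Real.exp_le_exp]
      linarith [mul_le_mul_of_nonneg_left (hA u) hs]
    rw [planted_eq hG hU, show -s + 1 = 1 - s by ring] at h2
    have h := Real.exp_le_exp.1 (j.trans h2)
    refine le_of_mul_le_mul_left ?_ hN0
    have e : (N:ℝ) * (√(N:ℝ))⁻¹ = √(N:ℝ) := by
      rw [← div_eq_mul_inv, Real.div_sqrt]
    have e' : (N:ℝ) * (s * (√(N:ℝ))⁻¹) = s * √(N:ℝ) := by rw [mul_left_comm, e]
    simp only [a] at h
    linarith

end Bounds

end Vale.Agent.P157.Gen
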