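import Vale.Agent.P157.Gen.Conc
import Vale.Agent.P157.Teach.Path

/-! Bounds on the planted free entropy of a finite space along discrete paths. -/

open MeasureTheory ProbabilityTheory Set Filter
open scoped Topology
open Vale.Agent.P157.Teach hiding avm avm_add avm_smul avm_mono avm_congr avm_one continuous_avm ovm ovm_mem ovm_mono dfl dfl_nonneg ke ke_slope ke_zero lp lpB lpB_nonneg abs_lp measurable_lp pot4 pot4_range hasDeriv_pot4 increment kk qq qq_mem continuous_qq qq_mono kk_slope hasDeriv_kk pot_bound lam continuous_lam lam_ge lam_slope step_upper step_lower lower_pick lower_sum upper lower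

namespace Vale.Agent.P157.Gen

variable {N : ℕ} {S : Type} [Fintype S] [Nonempty S] {lo hi : ℝ} {x : S → Fin N → ℝ} {c : S → ℝ}

/-- free entropy with `m` copies of the weight -/
noncomputable def kk (x : S → Fin N → ℝ) (c : S → ℝ) (U : ℝ → ℝ) (m : ℕ) (l : ℝ) : ℝ := ke x c (fun _ : Fin m => U) l

/-- free entropy of the channel alone -/
noncomputable def k0 (x : S → Fin N → ℝ) (c : S → ℝ) (l : ℝ) : ℝ := ke x c (fun a : Fin 0 => a.elim0) l

/-- mean overlap per site -/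
noncomputable def qq (x : S → Fin N → ℝ) (c : S → ℝ) (U : ℝ → ℝ) (m : ℕ) (l : ℝ) : ℝ :=
  ovm x c (fun _ : Fin m => U) l / N

/-- the adaptive side channel -/
noncomputable def lam (x : S → Fin N → ℝ) (c : S → ℝ) (U U1 : ℝ → ℝ) (M : ℕ) : ℕ → ℝ → ℝ
  | 0, s => s
  | j + 1, s => lam x c U U1 M j s + rho U U1 (qq x c U (M - (j + 1)) (lam x c U U1 M j s)) / N

omit [Nonempty S] in
lemma kk_zero (U : ℝ → ℝ) (l : ℝ) : kk x c U 0 l = k0 x c l := by
  rw [kk, k0, show (fun _ : Fin 0 => U) = fun a : Fin 0 => a.elim0 from funext fun a => a.elim0]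

lemma k0_at_zero (hG : Geo x c) : k0 x c 0 = 0 := by
  have h : tt c = 1 := hG.mass
  have e : ∀ g : Fin 0 → Fin N → ℝ, lp x c (fun a : Fin 0 => a.elim0) g = c := fun g => by funext s; simp [lp]
  have hz : ∀ y : Fin N → ℝ, zed x c 0 y = c := fun y => by funext t; simp [zed]
  simp [k0, ke, avm, av, hz, e, ent, h]

/-- supporting lines of the channel entropy -/
lemma k0_tangent (hG : Geo x c) {a : ℝ} (ha : 0 ≤ a) :
    ∃ d ∈ Icc (0:ℝ) 1, ∀ b, 0 ≤ b → k0 x c a + d / 2 * (b - a) ≤ k0 x c b := by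
  have hV : ∀ a : Fin 0, Pw ((fun a : Fin 0 => a.elim0) a : ℝ → ℝ) 1 1 := fun a => a.elim0
  have h := ovm_mem hG hV ha
  have hN0 : (0:ℝ) < N := by exact_mod_cast hG.pos
  refine ⟨ovm x c (fun a : Fin 0 => a.elim0) a / N, ⟨div_nonneg h.1 hN0.le, (div_le_one hN0).2 h.2⟩, fun b hb => ?_⟩
  rw [k0, k0, div_div, mul_comm (N:ℝ) 2]
  rcases le_total a b with hab | hab
  · linarith [(ke_slope hG hV ha hab).1]
  · linarith [(ke_slope hG hV hb hab).2]

lemma k0_incr (hG : Geo x c) {a b : ℝ} (ha : 0 ≤ a) (hab : a ≤ b) :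
    k0 x c a ≤ k0 x c b ∧ k0 x c b ≤ k0 x c a + (b - a) / 2 := by
  obtain ⟨d, ⟨hd0, -⟩, hd⟩ := k0_tangent hG ha
  obtain ⟨e, ⟨-, he1⟩, he⟩ := k0_tangent hG (ha.trans hab)
  constructor
  · linarith [hd b (ha.trans hab), mul_nonneg (show 0 ≤ d / 2 by linarith) (sub_nonneg.2 hab)]
  · linarith [he a ha, mul_le_mul_of_nonneg_right (show e / 2 ≤ 1 / 2 by linarith) (sub_nonneg.2 hab)]

section One

variable {U : ℝ → ℝ} (hG : Geo x c) (hUp : Pw U lo hi)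
include hG hUp

lemma qq_mem (m : ℕ) {l : ℝ} (hl : 0 ≤ l) : qq x c U m l ∈ Icc (0:ℝ) 1 := by
  have h := ovm_mem hG (fun _ : Fin m => hUp) hl
  have hN0 : (0:ℝ) < N := by exact_mod_cast hG.pos
  exact ⟨div_nonneg h.1 hN0.le, by rw [qq, div_le_one hN0]; exact h.2⟩

omit hG in
lemma continuous_qq (m : ℕ) : Continuous (qq x c U m) :=
  (continuous_avm (x := x) (c := c) (fun _ : Fin m => hUp) gro_ov1).div_const _

lemma qq_mono (m : ℕ) {a b : ℝ} (ha : 0 ≤ a) (hab : a ≤ b) : qq x c U m a ≤ qq x c U m b :=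
  div_le_div_of_nonneg_right (ovm_mono hG (fun _ : Fin m => hUp) ha hab) (Nat.cast_nonneg N)

lemma kk_slope (m : ℕ) {a b : ℝ} (ha : 0 ≤ a) (hab : a ≤ b) :
    qq x c U m a / 2 * (b - a) ≤ kk x c U m b - kk x c U m a ∧
      kk x c U m b - kk x c U m a ≤ qq x c U m b / 2 * (b - a) := by
  have h := ke_slope hG (fun _ : Fin m => hUp) ha hab
  simp only [qq, div_div]
  rw [mul_comm (N:ℝ) 2]
  exact h

lemma hasDeriv_kk (m : ℕ) {l : ℝ} (hl : 0 < l) : HasDerivAt (kk x c U m) (qq x c U m l / 2) l := by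
  have := (d_ent (μ := pg N m) (xb x) hG.self (measurable_lp (x := x) (c := c) fun _ : Fin m => hUp) (lpB_nonneg c m)
    (fun g s => abs_lp (x := x) (c := c) (fun _ : Fin m => hUp) g s) hl).div_const (N:ℝ)
  rw [div_right_comm] at this
  exact this

lemma pot_bound (m : ℕ) {η K l T : ℝ} (hη : 0 < η) (hl : 0 ≤ l) (hlT : l ≤ T)
    (hsp : Spread x c U m l) (hK : K4 lo hi (m / N) l ≤ K) :
    |pot4 x c (m := m) U η K l| ≤ (N:ℝ) ^ 2 * Rg η K T N := by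
  refine (pot4_range hG hUp hη.le hl hsp hK).trans ?_
  have hN0 : (0:ℝ) < N := by exact_mod_cast hG.pos
  have hK0 : 0 ≤ K := K4_nonneg.trans hK
  have hr : 0 < √(N:ℝ) := Real.sqrt_pos.2 hN0
  have hr2 : √(N:ℝ) ^ 2 = N := Real.sq_sqrt hN0.le
  have e : (N:ℝ) ^ 2 * Rg η K T N =
      2 * N * (1 + (1 + K) * √(N:ℝ)) + 2 * η * (N:ℝ) ^ 2 + 2 * K * N / η ^ 3 * T := by
    have e1 : (N:ℝ) ^ 2 * (√(N:ℝ))⁻¹ = N * √(N:ℝ) := by
      rw [← div_eq_mul_inv, div_eq_iff hr.ne', mul_assoc, ← sq, hr2, sq]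
    have e2 : (N:ℝ) ^ 2 * (N:ℝ)⁻¹ = N := by field_simp
    rw [Rg, mul_add, mul_add, mul_left_comm ((N:ℝ) ^ 2) (2 + 2 * K * T / η ^ 3), e2,
      mul_left_comm ((N:ℝ) ^ 2) (2 * (1 + K)), e1]
    ring
  rw [e, abs_of_pos hη]
  exact add_le_add le_rfl (mul_le_mul_of_nonneg_left hlT (by positivity))

end One

section Paths

variable {U U1 U2 : ℝ → ℝ} {L : ℝ} (hU : Sm U U1 U2 lo hi L) (hUp : Pw U lo hi) (hG : Geo x c)
include hU hUp hG

omit hG in
lemma continuous_lam (M : ℕ) : ∀ j, Continuous (lam x c U U1 M j)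
  | 0 => continuous_id
  | j + 1 => (continuous_lam M j).add
      ((hU.continuous_rho.comp ((continuous_qq hUp _).comp (continuous_lam M j))).div_const _)

omit hUp hG in
lemma lam_ge (M : ℕ) (s : ℝ) : ∀ j, s ≤ lam x c U U1 M j s ∧ lam x c U U1 M j s ≤ s + j * (L ^ 2 / lo / N)
  | 0 => by simp [lam]
  | j + 1 => by
    obtain ⟨h1, h2⟩ := lam_ge M s j
    have a := div_nonneg (hU.rho_nonneg (qq x c U (M - (j + 1)) (lam x c U U1 M j s))) (Nat.cast_nonneg (α := ℝ) N)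
    have b := div_le_div_of_nonneg_right (hU.rho_le (qq x c U (M - (j + 1)) (lam x c U U1 M j s))) (Nat.cast_nonneg (α := ℝ) N)
    constructor <;> simp only [lam] <;> push_cast <;> linarith

lemma lam_slope (M : ℕ) {s t : ℝ} (hs : 0 ≤ s) (hst : s ≤ t) :
    ∀ j, t - s ≤ lam x c U U1 M j t - lam x c U U1 M j s
  | 0 => le_rfl
  | j + 1 => by
    have h := lam_slope M hs hst j
    have l0 : 0 ≤ lam x c U U1 M j s := hs.trans (lam_ge hU M s j).1
    have l1 : lam x c U U1 M j s ≤ lam x c U U1 M j t := by linarith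
    have hρ := hU.rho_mono (qq_mem hG hUp (M - (j + 1)) l0).1 (qq_mono hG hUp _ l0 l1)
      (qq_mem hG hUp _ (l0.trans l1)).2
    have := div_le_div_of_nonneg_right hρ (Nat.cast_nonneg (α := ℝ) N)
    simp only [lam]
    linarith

/-- one step of the adaptive path -/
lemma step_upper {m : ℕ} {l : ℝ} (hl : 0 ≤ l) {r : ℝ} (hr : 0 < r) :
    (N:ℝ) * (kk x c U (m + 1) l - kk x c U m (l + rho U U1 (qq x c U m l) / N)) ≤
      Psi U (qq x c U m l) - rho U U1 (qq x c U m l) * qq x c U m l / 2 +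
        2 * L ^ 2 / lo * (r + dfl x c (fun _ : Fin m => U) l / ((N:ℝ) ^ 2 * r)) := by
  have hN0 : (0:ℝ) < N := by exact_mod_cast hG.pos
  have h1 := (abs_le.1 (increment hG hU hUp (m := m) hl hr)).2
  have h2 := (kk_slope hG hUp m hl (le_add_of_nonneg_right (div_nonneg (hU.rho_nonneg (qq x c U m l)) hN0.le))).1
  have h3 := mul_le_mul_of_nonneg_left h2 hN0.le
  rw [add_sub_cancel_left, show (N:ℝ) * (qq x c U m l / 2 * (rho U U1 (qq x c U m l) / N)) =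
    rho U U1 (qq x c U m l) * qq x c U m l / 2 by field_simp] at h3
  simp only [kk, qq] at *
  linarith

/-- one step of the straight path -/
lemma step_lower {m : ℕ} {l Δ : ℝ} (hl : 0 ≤ l) (hΔ : 0 ≤ Δ) {r : ℝ} (hr : 0 < r) :
    Psi U (qq x c U m l) - (N:ℝ) * Δ * qq x c U m l / 2 -
        2 * L ^ 2 / lo * (r + dfl x c (fun _ : Fin m => U) l / ((N:ℝ) ^ 2 * r)) -
        (N:ℝ) * Δ / 2 * (qq x c U m (l + Δ) - qq x c U m l) ≤
      (N:ℝ) * (kk x c U (m + 1) l - kk x c U m (l + Δ)) := by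
  have hN0 : (0:ℝ) < N := by exact_mod_cast hG.pos
  have h1 := (abs_le.1 (increment hG hU hUp (m := m) hl hr)).1
  have h2 := (kk_slope hG hUp m hl (le_add_of_nonneg_right hΔ)).2
  have h3 := mul_le_mul_of_nonneg_left h2 hN0.le
  rw [add_sub_cancel_left] at h3
  simp only [kk, qq] at *
  linarith

end Paths

section Straight

variable {U U1 U2 : ℝ → ℝ} {L : ℝ} (hU : Sm U U1 U2 lo hi L) (hUp : Pw U lo hi) (hG : Geo x c)
include hU hUp hG

omit hU in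
/-- a good starting point for the straight path -/
lemma lower_pick {M : ℕ} {Δ η K T s₀ : ℝ} (hs₀ : 0 < s₀) (hΔ : 0 ≤ Δ) (hη : 0 < η)
    (hT : 2 * s₀ + M * Δ < T)
    (hsp : ∀ m ≤ M, ∀ l, 0 < l → l < T → Spread x c U m l)
    (hK : ∀ m ≤ M, ∀ l, 0 ≤ l → l < T → K4 lo hi ((m:ℕ) / (N:ℝ)) l ≤ K) :
    ∃ s ∈ Icc s₀ (2 * s₀), s₀ * ∑ j : Fin M,
      (dfl x c (fun _ : Fin (M - ((j:ℕ) + 1)) => U) (s + (j:ℕ) * Δ) + (N:ℝ) ^ 2 *
        (qq x c U (M - ((j:ℕ) + 1)) (s + (j:ℕ) * Δ + Δ) - qq x c U (M - ((j:ℕ) + 1)) (s + (j:ℕ) * Δ))) ≤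
      2 * M * ((N:ℝ) ^ 2 * (Rg η K T N + Δ)) + 1 := by
  have hlamT : ∀ (j : Fin M), ∀ s ∈ Icc s₀ (2 * s₀), 0 < s + (j:ℕ) * Δ ∧ s + (j:ℕ) * Δ < T := fun j s hs => by
    have h1 : 0 ≤ ((j:ℕ):ℝ) * Δ := mul_nonneg (Nat.cast_nonneg _) hΔ
    have h2 : ((j:ℕ):ℝ) * Δ ≤ M * Δ := mul_le_mul_of_nonneg_right (by exact_mod_cast j.2.le) hΔ
    constructor <;> linarith [hs.1, hs.2]
  obtain ⟨s, hs, hsum⟩ := select (T := T) (R := (N:ℝ) ^ 2 * (Rg η K T N + Δ)) (show s₀ < 2 * s₀ by linarith)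
    (fun (j : Fin M) l => pot4 x c (m := M - ((j:ℕ) + 1)) U η K l +
      2 * (N:ℝ) ^ 2 * (kk x c U (M - ((j:ℕ) + 1)) (l + Δ) - kk x c U (M - ((j:ℕ) + 1)) l))
    (fun j l => dfl x c (fun _ : Fin (M - ((j:ℕ) + 1)) => U) l +
      (N:ℝ) ^ 2 * (qq x c U (M - ((j:ℕ) + 1)) (l + Δ) - qq x c U (M - ((j:ℕ) + 1)) l))
    (fun (j : Fin M) s => s + (j:ℕ) * Δ)
    (fun j => by fun_prop) (fun j s t _ _ _ => by linarith) hlamT
    (fun j l hl hlT => by
      obtain ⟨d, hd, hd0, hd1⟩ := hasDeriv_pot4 (m := M - ((j:ℕ) + 1)) hG hUp hη hl (hsp _ (Nat.sub_le _ _) l hl hlT) (hK _ (Nat.sub_le _ _) l hl.le hlT)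
      set m := M - ((j:ℕ) + 1)
      have hmono := qq_mono hG hUp m hl.le (le_add_of_nonneg_right hΔ)
      have h1 : HasDerivAt (fun l => kk x c U m (l + Δ)) (qq x c U m (l + Δ) / 2) l :=
        (hasDeriv_kk hG hUp m (show 0 < l + Δ by linarith)).comp_add_const l Δ
      refine ⟨_, hd.add (((h1.sub (hasDeriv_kk hG hUp m hl)).const_mul (2 * (N:ℝ) ^ 2))), ?_, ?_⟩
      · have : 0 ≤ (N:ℝ) ^ 2 * (qq x c U m (l + Δ) - qq x c U m l) := mul_nonneg (sq_nonneg _) (sub_nonneg.2 hmono)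
        linarith
      · linarith)
    (fun j l hl hlT => by
      set m := M - ((j:ℕ) + 1)
      have h1 := pot_bound hG hUp m hη hl.le hlT.le (hsp _ (Nat.sub_le _ _) l hl hlT) (hK _ (Nat.sub_le _ _) l hl.le hlT)
      have hks := kk_slope hG hUp m hl.le (le_add_of_nonneg_right hΔ)
      rw [add_sub_cancel_left] at hks
      have ha := mul_nonneg (div_nonneg (qq_mem hG hUp m hl.le).1 two_pos.le) hΔ
      have hb := mul_le_mul_of_nonneg_right
        (div_le_div_of_nonneg_right (qq_mem hG hUp m (show 0 ≤ l + Δ by linarith)).2 two_pos.le) hΔ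
      refine (abs_add_le _ _).trans ((add_le_add h1 (le_of_eq (abs_of_nonneg (mul_nonneg (by positivity)
        (by linarith))))).trans ?_)
      have := mul_le_mul_of_nonneg_left (show kk x c U m (l + Δ) - kk x c U m l ≤ Δ / 2 by linarith)
        (show 0 ≤ 2 * (N:ℝ) ^ 2 by positivity)
      linarith)
  rw [Fintype.card_fin, show 2 * s₀ - s₀ = s₀ by ring] at hsum
  exact ⟨s, hs, hsum⟩

/-- summing the straight path -/
lemma lower_sum {M : ℕ} {Δ r s : ℝ} (hΔ : 0 ≤ Δ) (hr : 0 < r) (hs : 0 ≤ s) :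
    (∑ j : Fin M, Psi U (qq x c U (M - ((j:ℕ) + 1)) (s + (j:ℕ) * Δ))) / N + k0 x c (M * Δ) -
        Δ / 2 * (∑ j : Fin M, qq x c U (M - ((j:ℕ) + 1)) (s + (j:ℕ) * Δ)) -
        2 * L ^ 2 / lo * (M * r / N +
          (∑ j : Fin M, dfl x c (fun _ : Fin (M - ((j:ℕ) + 1)) => U) (s + (j:ℕ) * Δ)) / ((N:ℝ) ^ 3 * r)) -
        Δ / 2 * (∑ j : Fin M, (qq x c U (M - ((j:ℕ) + 1)) (s + (j:ℕ) * Δ + Δ) -
          qq x c U (M - ((j:ℕ) + 1)) (s + (j:ℕ) * Δ))) - s / 2 ≤ kk x c U M 0 := by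
  have hN0 : (0:ℝ) < N := by exact_mod_cast hG.pos
  set l := fun j : Fin M => s + (j:ℕ) * Δ
  have hl : ∀ j, 0 ≤ l j := fun j => add_nonneg hs (mul_nonneg (Nat.cast_nonneg _) hΔ)
  set F := fun j : ℕ => kk x c U (M - j) (s + (j:ℝ) * Δ)
  have hstep : ∀ j : Fin M, Psi U (qq x c U (M - ((j:ℕ) + 1)) (l j)) / N -
      Δ / 2 * qq x c U (M - ((j:ℕ) + 1)) (l j) -
      2 * L ^ 2 / lo * (r / N + dfl x c (fun _ : Fin (M - ((j:ℕ) + 1)) => U) (l j) / ((N:ℝ) ^ 3 * r)) -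
      Δ / 2 * (qq x c U (M - ((j:ℕ) + 1)) (l j + Δ) - qq x c U (M - ((j:ℕ) + 1)) (l j)) ≤
      F j - F ((j:ℕ) + 1) := fun j => by
    have := step_lower hU hUp hG (m := M - ((j:ℕ) + 1)) (hl j) hΔ hr
    rw [show M - ((j:ℕ) + 1) + 1 = M - (j:ℕ) by omega] at this
    refine le_of_mul_le_mul_left ((le_of_eq ?_).trans (this.trans (le_of_eq ?_))) hN0
    · field_simp
    · simp only [F, l, Nat.cast_add, Nat.cast_one, add_mul, one_mul, add_assoc]
  have hF0 : F 0 = kk x c U M s := by simp [F]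
  have hFM : F M = k0 x c (s + M * Δ) := by
    simp only [F, Nat.sub_self]
    exact kk_zero _ _
  have htel := sum_path F M
  rw [hF0, hFM] at htel
  have hS := Finset.sum_le_sum fun j (_ : j ∈ Finset.univ) => hstep j
  simp only [Finset.sum_sub_distrib, ← Finset.mul_sum, Finset.sum_add_distrib, Finset.sum_const, Finset.card_univ,
    Fintype.card_fin, nsmul_eq_mul, ← Finset.sum_div] at hS
  simp only [Finset.sum_sub_distrib] at htel ⊢
  rw [← mul_div_assoc] at hS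
  have hI := (k0_incr hG (mul_nonneg (Nat.cast_nonneg M) hΔ) (show (M:ℝ) * Δ ≤ s + M * Δ by linarith)).1
  have hbase := (kk_slope hG hUp M le_rfl hs).2
  have := mul_le_mul_of_nonneg_right (div_le_div_of_nonneg_right (qq_mem hG hUp M hs).2 two_pos.le)
    (sub_nonneg.2 hs)
  simp only [l] at hS
  linarith

end Straight

/-- the upper bound for one space -/
lemma upper_fin (hG : Geo x c) {U U1 U2 : ℝ → ℝ} {L : ℝ} (hU : Sm U U1 U2 lo hi L) (hUp : Pw U lo hi) {M : ℕ}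
    {α δ s₀ r η T K : ℝ} (hM : (M:ℝ) ≤ α * N) (hδ : 0 ≤ δ) (hs₀ : 0 < s₀) (hr : 0 < r) (hη : 0 < η)
    (hT : 2 * s₀ + α * (L ^ 2 / lo) < T) (hK : K4 lo hi α T ≤ K)
    (hsp : ∀ m ≤ M, ∀ l, 0 < l → l < T → Spread x c U m l)
    (hH : ∀ b, 0 ≤ b → b ≤ α * (L ^ 2 / lo) → ∃ q ∈ Icc (0:ℝ) 1, α * Psi U q + k0 x c b ≤ b * q / 2 + δ) :
    kk x c U M 0 ≤ δ + s₀ + 2 * L ^ 2 / lo * (α * r + (2 * α * Rg η K T N + (N:ℝ)⁻¹ ^ 3) / s₀ / r) := by
  have hlo := hU.pos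
  set C := 2 * L ^ 2 / lo
  have hC : 0 ≤ C := by positivity
  have hN0 : (0:ℝ) < N := by exact_mod_cast hG.pos
  set α' := (M:ℝ) / N
  have hα'0 : 0 ≤ α' := by positivity
  have hα' : α' ≤ α := (div_le_iff₀ hN0).2 hM
  have hα0 : 0 ≤ α := hα'0.trans hα'
  have hL0 : 0 ≤ L ^ 2 / lo := by positivity
  have hKm : ∀ (j : Fin M) (l : ℝ), 0 ≤ l → l < T → K4 lo hi ((M - ((j:ℕ) + 1) : ℕ) / N) l ≤ K := fun j l hl0 hl =>
    (K4_mono (by
      rw [div_le_iff₀ hN0]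
      exact le_trans (by exact_mod_cast Nat.sub_le _ _) hM) hl0 hl.le).trans hK
  have hlamT : ∀ (j : Fin M), ∀ s ∈ Icc s₀ (2 * s₀),
      0 < lam x c U U1 M j s ∧ lam x c U U1 M j s < T := fun j s hs => by
    obtain ⟨h1, h2⟩ := lam_ge (x := x) (c := c) hU M s (j:ℕ)
    have : ((j:ℕ):ℝ) * (L ^ 2 / lo / N) ≤ α * (L ^ 2 / lo) := by
      rw [← mul_div_assoc, div_le_iff₀ hN0, mul_right_comm]
      exact mul_le_mul_of_nonneg_right (le_trans (by exact_mod_cast j.2.le) hM) hL0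
    constructor <;> linarith [hs.1, hs.2]
  obtain ⟨s, hs, hsum⟩ := select (T := T) (R := (N:ℝ) ^ 2 * Rg η K T N) (show s₀ < 2 * s₀ by linarith)
    (fun j : Fin M => pot4 x c (m := M - ((j:ℕ) + 1)) U η K)
    (fun j l => dfl x c (fun _ : Fin (M - ((j:ℕ) + 1)) => U) l)
    (fun j => lam x c U U1 M j)
    (fun j => (continuous_lam hU hUp M j).continuousOn)
    (fun j s t hs hst _ => lam_slope hU hUp hG M (by linarith) hst j) hlamT
    (fun j l hl hlT => hasDeriv_pot4 hG hUp hη hl (hsp _ (Nat.sub_le _ _) l hl hlT) (hKm j l hl.le hlT))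
    (fun j l hl hlT => pot_bound hG hUp _ hη hl.le hlT.le (hsp _ (Nat.sub_le _ _) l hl hlT) (hKm j l hl.le hlT))
  rw [Fintype.card_fin, show 2 * s₀ - s₀ = s₀ by ring] at hsum
  set q := fun j : Fin M => qq x c U (M - ((j:ℕ) + 1)) (lam x c U U1 M j s)
  set ρ := fun j : Fin M => rho U U1 (q j)
  have hs0 : 0 ≤ s := by linarith [hs.1]
  have hq : ∀ j, q j ∈ Icc (0:ℝ) 1 := fun j => qq_mem hG hUp _ (hlamT j s hs).1.le
  set d := fun j : Fin M => dfl x c (fun _ : Fin (M - ((j:ℕ) + 1)) => U) (lam x c U U1 M j s)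
  have hstep : ∀ j : Fin M, (N:ℝ) * (kk x c U (M - (j:ℕ)) (lam x c U U1 M j s) -
      kk x c U (M - ((j:ℕ) + 1)) (lam x c U U1 M (j + 1) s)) ≤
      Psi U (q j) - ρ j * q j / 2 + C * (r + d j / ((N:ℝ) ^ 2 * r)) := fun j => by
    have := step_upper hU hUp hG (m := M - ((j:ℕ) + 1)) (hlamT j s hs).1.le hr
    rw [show M - ((j:ℕ) + 1) + 1 = M - (j:ℕ) by omega] at this
    exact this
  have htel := sum_path (fun j => kk x c U (M - j) (lam x c U U1 M j s)) M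
  simp only [Nat.sub_zero, Nat.sub_self, lam] at htel
  rw [kk_zero] at htel
  set A := (∑ j, ρ j) / N
  have hA : lam x c U U1 M M s = s + A := by
    have h := sum_path (fun j => lam x c U U1 M j s) M
    simp only [lam, sub_add_cancel_left, Finset.sum_neg_distrib, ← Finset.sum_div] at h
    simp only [A, ρ, q]
    linarith
  have hA0 : 0 ≤ A := div_nonneg (Finset.sum_nonneg fun j _ => hU.rho_nonneg _) hN0.le
  have hI : k0 x c (lam x c U U1 M M s) ≤ k0 x c A + s / 2 := by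
    rw [hA]
    have := (k0_incr hG hA0 (show A ≤ s + A by linarith)).2
    linarith
  have hJ : k0 x c A + (1 / N) * ∑ j, (Psi U (q j) - ρ j * q j / 2) ≤ δ := by
    rcases Nat.eq_zero_or_pos M with rfl | hM0
    · simpa [A, k0_at_zero hG] using hδ
    have hM1 : (0:ℝ) < M := by exact_mod_cast hM0
    obtain ⟨e, -, he⟩ := k0_tangent hG hA0
    have hj : ∀ j, α' * Psi U (q j) - α' * ρ j * q j / 2 + (k0 x c A + e / 2 * (α' * ρ j - A)) ≤ δ := fun j => by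
      have hb : 0 ≤ α' * ρ j := mul_nonneg hα'0 (hU.rho_nonneg _)
      obtain ⟨q', hq', hH'⟩ := hH _ hb (mul_le_mul hα' (hU.rho_le _) (hU.rho_nonneg _) hα0)
      have h1 := mul_le_mul_of_nonneg_right hα' (hUp.Psi_mem hq').1
      have h2 := mul_le_mul_of_nonneg_left (hU.tangent (hq j) hq') hα'0
      linarith [he _ hb]
    have hS := Finset.sum_le_sum fun j (_ : j ∈ Finset.univ) => hj j
    have eS : ∑ j, (α' * Psi U (q j) - α' * ρ j * q j / 2 + (k0 x c A + e / 2 * (α' * ρ j - A))) =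
        α' * ∑ j, (Psi U (q j) - ρ j * q j / 2) + M * k0 x c A + e / 2 * (α' * ∑ j, ρ j - M * A) := by
      rw [Finset.sum_congr rfl fun j (_ : j ∈ Finset.univ) =>
        show α' * Psi U (q j) - α' * ρ j * q j / 2 + (k0 x c A + e / 2 * (α' * ρ j - A)) =
          α' * (Psi U (q j) - ρ j * q j / 2) + k0 x c A + e / 2 * (α' * ρ j - A) by ring]
      simp only [Finset.sum_add_distrib, ← Finset.mul_sum, Finset.sum_sub_distrib, Finset.sum_const,
        Finset.card_univ, Fintype.card_fin, nsmul_eq_mul]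
    have eA : α' * ∑ j, ρ j = M * A := by simp only [α', A]; ring
    rw [eS, eA, sub_self, mul_zero, add_zero] at hS
    simp only [Finset.sum_const, Finset.card_univ, Fintype.card_fin, nsmul_eq_mul] at hS
    refine le_of_mul_le_mul_left ((le_of_eq ?_).trans hS) hM1
    simp only [α']
    ring
  have hsum2 : ∑ j : Fin M, (kk x c U (M - (j:ℕ)) (lam x c U U1 M j s) -
      kk x c U (M - ((j:ℕ) + 1)) (lam x c U U1 M (j + 1) s)) ≤
      (1 / N) * ∑ j, (Psi U (q j) - ρ j * q j / 2) + C * (α * r + (2 * α * Rg η K T N + (N:ℝ)⁻¹ ^ 3) / s₀ / r) := by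
    have := Finset.sum_le_sum fun j (_ : j ∈ Finset.univ) => hstep j
    rw [← Finset.mul_sum, Finset.sum_add_distrib, ← Finset.mul_sum, Finset.sum_add_distrib, Finset.sum_const,
      Finset.card_univ, Fintype.card_fin, nsmul_eq_mul, ← Finset.sum_div] at this
    have hd : (∑ j, d j) / ((N:ℝ) ^ 2 * r) ≤ (N:ℝ) * ((2 * α * Rg η K T N + (N:ℝ)⁻¹ ^ 3) / s₀ / r) := by
      have hR : 0 ≤ Rg η K T N := by
        have : 0 ≤ K := K4_nonneg.trans hK
        have : 0 ≤ T := by linarith [mul_nonneg hα0 hL0]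
        unfold Rg; positivity
      rw [div_le_iff₀ (by positivity)]
      have h1 : 2 * (M:ℝ) * ((N:ℝ) ^ 2 * Rg η K T N) ≤ 2 * (α * N) * ((N:ℝ) ^ 2 * Rg η K T N) := by gcongr
      have h2 : ∑ j, d j ≤ (2 * (α * N) * ((N:ℝ) ^ 2 * Rg η K T N) + 1) / s₀ := by
        rw [le_div_iff₀ hs₀]; linarith
      refine h2.trans (le_of_eq ?_)
      field_simp
    rw [one_div_mul_eq_div]
    rw [mul_comm, ← le_div_iff₀ hN0] at this
    refine this.trans ?_
    rw [add_div, mul_div_assoc C]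
    refine add_le_add le_rfl (mul_le_mul_of_nonneg_left ?_ hC)
    rw [div_le_iff₀ hN0]
    have : (M:ℝ) * r ≤ α * N * r := mul_le_mul_of_nonneg_right hM hr.le
    linarith
  have hmono := (kk_slope hG hUp M le_rfl hs0).1
  have hq0 := (qq_mem hG hUp M (le_refl (0:ℝ))).1
  have := mul_nonneg (div_nonneg hq0 two_pos.le) (sub_nonneg.2 hs0)
  simp only [lam] at htel hsum2
  linarith [hs.2]

/-- the lower bound for one space -/
lemma lower_fin (hG : Geo x c) {U U1 U2 : ℝ → ℝ} {L : ℝ} (hU : Sm U U1 U2 lo hi L) (hUp : Pw U lo hi) {M : ℕ}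
    {α δ r₀ s₀ r η T K : ℝ} (hα : 0 < α) (hαN : 2 ≤ α * N) (hM1 : α * N - 1 ≤ (M:ℝ)) (hM : (M:ℝ) ≤ α * N)
    (hr₀ : 0 ≤ r₀) (hs₀ : 0 < s₀) (hr : 0 < r) (hη : 0 < η) (hT : 2 * s₀ + r₀ < T) (hK : K4 lo hi α T ≤ K)
    (hsp : ∀ m ≤ M, ∀ l, 0 < l → l < T → Spread x c U m l)
    (hH : ∀ q ∈ Icc (0:ℝ) 1, r₀ * q / 2 + δ ≤ α * Psi U q + k0 x c r₀) :
    δ - hi * lb lo hi * (N:ℝ)⁻¹ - s₀ - 2 * L ^ 2 / lo * α * r - (2 * L ^ 2 / lo * α / r + r₀ / 2) *
      ((2 * (Rg η K T N + 2 * r₀ / α * (N:ℝ)⁻¹) + 2 / α * (N:ℝ)⁻¹ ^ 3) / s₀) ≤ kk x c U M 0 := by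
  have hlo := hU.pos
  set C := 2 * L ^ 2 / lo
  have hC : 0 ≤ C := by positivity
  have hN0 : (0:ℝ) < N := by exact_mod_cast hG.pos
  have hMh : α * N / 2 ≤ M := by linarith
  have hM0 : (0:ℝ) < M := by linarith
  set Δ := r₀ / M
  have hΔ : 0 ≤ Δ := by positivity
  have hMΔ : (M:ℝ) * Δ = r₀ := by simp only [Δ]; field_simp
  have hΔN : Δ ≤ 2 * r₀ / α * (N:ℝ)⁻¹ := by
    refine (div_le_div_of_nonneg_left hr₀ (by positivity) hMh).trans (le_of_eq ?_)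
    field_simp
  obtain ⟨s, hs, hsum⟩ := lower_pick (M := M) hUp hG hs₀ hΔ hη
    (T := T) (K := K) (by rw [hMΔ]; linarith) hsp (fun m hm l hl0 hl =>
      (K4_mono (by rw [div_le_iff₀ hN0]; exact le_trans (by exact_mod_cast hm) hM) hl0 hl.le).trans hK)
  have hs0 : 0 ≤ s := by linarith [hs.1]
  have hmain := lower_sum hU hUp hG (M := M) hΔ hr hs0
  rw [hMΔ] at hmain
  have hlam : ∀ j : Fin M, 0 ≤ s + (j:ℕ) * Δ := fun j => add_nonneg hs0 (mul_nonneg (Nat.cast_nonneg _) hΔ)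
  set Sd := ∑ j : Fin M, dfl x c (fun _ : Fin (M - ((j:ℕ) + 1)) => U) (s + (j:ℕ) * Δ)
  set SD := ∑ j : Fin M, (qq x c U (M - ((j:ℕ) + 1)) (s + (j:ℕ) * Δ + Δ) -
    qq x c U (M - ((j:ℕ) + 1)) (s + (j:ℕ) * Δ))
  set G := (2 * (Rg η K T N + 2 * r₀ / α * (N:ℝ)⁻¹) + 2 / α * (N:ℝ)⁻¹ ^ 3) / s₀
  have hd0 : 0 ≤ Sd := Finset.sum_nonneg fun j _ => dfl_nonneg hG hUp (hlam j)
  have hD0 : 0 ≤ SD := Finset.sum_nonneg fun j _ => sub_nonneg.2
    (qq_mono hG hUp _ (hlam j) (le_add_of_nonneg_right hΔ))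
  have hGd : Sd + (N:ℝ) ^ 2 * SD ≤ (N:ℝ) ^ 2 * M * G := by
    rw [Finset.sum_add_distrib, ← Finset.mul_sum, mul_comm, ← le_div_iff₀ (by positivity)] at hsum
    refine hsum.trans ?_
    have h2 := mul_le_mul_of_nonneg_left (add_le_add (le_refl (Rg η K T N)) hΔN)
      (show 0 ≤ 2 * (M:ℝ) * (N:ℝ) ^ 2 by positivity)
    have h3 : (1:ℝ) ≤ (N:ℝ) ^ 2 * M * (2 / α * (N:ℝ)⁻¹ ^ 3) := by
      rw [show (N:ℝ) ^ 2 * M * (2 / α * (N:ℝ)⁻¹ ^ 3) = M / (α * N / 2) by field_simp, le_div_iff₀ (by positivity)]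
      linarith
    simp only [G]
    rw [← mul_div_assoc]
    gcongr
    linarith
  have hG0 : 0 ≤ G := by
    have h : 0 ≤ (N:ℝ) ^ 2 * M * G := le_trans (add_nonneg hd0 (by positivity)) hGd
    exact nonneg_of_mul_nonneg_right h (by positivity)
  have hN2' : (0:ℝ) < (N:ℝ) ^ 2 := by positivity
  have b1 : Sd ≤ (N:ℝ) ^ 2 * M * G := by linarith [mul_nonneg hN2'.le hD0]
  have b2 : SD ≤ M * G := le_of_mul_le_mul_left (by linarith) hN2'
  have hMα : (M:ℝ) / N ≤ α := (div_le_iff₀ hN0).2 hM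
  have e1 : C * (M * r / N + Sd / ((N:ℝ) ^ 3 * r)) ≤ C * α * r + C * α / r * G := by
    have h1 : Sd / ((N:ℝ) ^ 3 * r) ≤ α * (G / r) := by
      calc Sd / ((N:ℝ) ^ 3 * r) ≤ (N:ℝ) ^ 2 * M * G / ((N:ℝ) ^ 3 * r) :=
            div_le_div_of_nonneg_right b1 (by positivity)
        _ = M / N * (G / r) := by field_simp
        _ ≤ _ := mul_le_mul_of_nonneg_right hMα (by positivity)
    have h2 : M * r / N ≤ α * r := by rw [mul_div_right_comm]; exact mul_le_mul_of_nonneg_right hMα hr.le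
    refine (mul_le_mul_of_nonneg_left (add_le_add h2 h1) hC).trans (le_of_eq ?_)
    ring
  have e2 : Δ / 2 * SD ≤ r₀ / 2 * G := by
    refine (mul_le_mul_of_nonneg_left b2 (by positivity)).trans_eq ?_
    rw [← hMΔ]; ring
  set α' := (M:ℝ) / N
  have hα'1 : α - α' ≤ (N:ℝ)⁻¹ := by
    rw [show α - α' = (α * N - M) / N by simp only [α']; field_simp, div_le_iff₀ hN0, inv_mul_cancel₀ hN0.ne']
    linarith
  set q := fun j : Fin M => qq x c U (M - ((j:ℕ) + 1)) (s + (j:ℕ) * Δ)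
  have hj : ∀ j, δ - hi * lb lo hi * (N:ℝ)⁻¹ ≤ α' * Psi U (q j) + k0 x c r₀ - r₀ / 2 * q j := fun j => by
    obtain ⟨p0, p1⟩ := hUp.Psi_mem (qq_mem hG hUp (M - ((j:ℕ) + 1)) (hlam j))
    have := mul_le_mul_of_nonneg_right hα'1 p0
    have := mul_le_mul_of_nonneg_right p1 (inv_nonneg.2 hN0.le)
    linarith [hH _ (qq_mem hG hUp (M - ((j:ℕ) + 1)) (hlam j))]
  have hJ := Finset.sum_le_sum fun j (_ : j ∈ Finset.univ) => hj j
  have eJ : ∑ j : Fin M, (α' * Psi U (q j) + k0 x c r₀ - r₀ / 2 * q j) =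
      M * ((∑ j : Fin M, Psi U (q j)) / N + k0 x c r₀ - Δ / 2 * (∑ j : Fin M, q j)) := by
    simp only [Finset.sum_sub_distrib, ← Finset.mul_sum, Finset.sum_add_distrib, Finset.sum_const, Finset.card_univ,
      Fintype.card_fin, nsmul_eq_mul]
    rw [← hMΔ]; simp only [α']; ring
  rw [eJ, Finset.sum_const, Finset.card_univ, Fintype.card_fin, nsmul_eq_mul] at hJ
  have hJ' := le_of_mul_le_mul_left hJ hM0
  have hWG : (C * α / r + r₀ / 2) * G = C * α / r * G + r₀ / 2 * G := by ring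
  linarith [hs.2]

end Vale.Agent.P157.Gen
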