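import Vale.Agent.P157.Gen.Chan
import Vale.Agent.P157.Gen.Gap
import Vale.Agent.P157.Lim.Sphere

/-! Finite models of the sphere: symmetry, and the channel entropy through the Gaussian prior. -/

open MeasureTheory ProbabilityTheory Set Filter
open scoped Topology RealInnerProductSpace
open Vale.Agent.P150 (gauss dot l1 l1_nonneg abs_dot_le integrable_of_bound)
open Vale.Agent.P157.Teach hiding avm avm_one avm_zero ke lp lpB lpB_nonneg abs_lp measurable_lp kk ell qU prob_qU lz meas_lz abs_lz
open Vale.Agent.P157.Lim (dirLaw nd radLaw measurable_nd measurable_rad dirLaw_unit dirLaw_indep gauss_toLp freeM logZ energy K₂ K₂_nonneg integral_lin_sq exists_finite)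

namespace Vale.Agent.P157.Gen

variable {N m : ℕ} {lo hi : ℝ} {U : ℝ → ℝ}

/-- exponent at a direction -/
noncomputable def se (U : ℝ → ℝ) (l : ℝ) (g : Fin m → Fin N → ℝ) (y u : Fin N → ℝ) : ℝ :=
  (∑ a, Real.log (U (dot u (g a)))) + (√l * √(N:ℝ) * dot u y - N * l / 2)

/-- `log Z` on the sphere -/
noncomputable def Lam (U : ℝ → ℝ) (l : ℝ) (g : Fin m → Fin N → ℝ) (y : Fin N → ℝ) : ℝ :=
  Real.log (∫ u, Real.exp (se U l g y u) ∂dirLaw (Fin N))

/-- exchange of nearby exponents -/
lemma log_int_sub {α : Type*} [MeasurableSpace α] {P : Measure α} [IsProbabilityMeasure P] {A B : α → ℝ} {D : ℝ}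
    (hA : Integrable (fun u => Real.exp (A u)) P) (hB : Measurable B) (h : ∀ᵐ u ∂P, |A u - B u| ≤ D) :
    Integrable (fun u => Real.exp (B u)) P ∧
      |Real.log (∫ u, Real.exp (A u) ∂P) - Real.log (∫ u, Real.exp (B u) ∂P)| ≤ D := by
  have hpt : ∀ᵐ u ∂P, Real.exp (B u) ≤ Real.exp D * Real.exp (A u) ∧ Real.exp (A u) ≤ Real.exp D * Real.exp (B u) := by
    filter_upwards [h] with u hu
    rw [← Real.exp_add, ← Real.exp_add, Real.exp_le_exp, Real.exp_le_exp]
    obtain ⟨h1, h2⟩ := abs_le.1 hu
    constructor <;> linarith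
  have hBi : Integrable (fun u => Real.exp (B u)) P :=
    (hA.const_mul (Real.exp D)).mono' hB.exp.aestronglyMeasurable (hpt.mono fun u hu => by
      rw [Real.norm_eq_abs, Real.abs_exp]; exact hu.1)
  refine ⟨hBi, ?_⟩
  have pA := integral_exp_pos hA
  have pB := integral_exp_pos hBi
  have a1 := integral_mono_ae hBi (hA.const_mul (Real.exp D)) (hpt.mono fun u hu => hu.1)
  have a2 := integral_mono_ae hA (hBi.const_mul (Real.exp D)) (hpt.mono fun u hu => hu.2)
  rw [integral_const_mul] at a1 a2
  have b1 := Real.log_le_log pB a1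
  have b2 := Real.log_le_log pA a2
  rw [Real.log_mul (Real.exp_pos _).ne' pA.ne', Real.log_exp] at b1
  rw [Real.log_mul (Real.exp_pos _).ne' pB.ne', Real.log_exp] at b2
  rw [abs_le]
  constructor <;> linarith

lemma unit_coord {u : Fin N → ℝ} (h : dot u u = 1) (i : Fin N) : |u i| ≤ 1 := by
  rw [← sq_le_one_iff_abs_le_one, sq, ← h]
  exact Finset.single_le_sum (f := fun i => u i * u i) (fun j _ => mul_self_nonneg _) (Finset.mem_univ i)

lemma measurable_se (hU : Measurable U) (l : ℝ) :
    Measurable fun p : ((Fin m → Fin N → ℝ) × (Fin N → ℝ)) × (Fin N → ℝ) => se U l p.1.1 p.1.2 p.2 := by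
  refine Measurable.add (Finset.measurable_sum _ fun a _ => Real.measurable_log.comp (hU.comp ?_)) ?_ <;>
    (unfold dot; fun_prop)

lemma measurable_Lam (hU : Measurable U) (l : ℝ) :
    Measurable fun p : (Fin m → Fin N → ℝ) × (Fin N → ℝ) => Lam U l p.1 p.2 :=
  Real.measurable_log.comp
    ((measurable_se hU l).exp.stronglyMeasurable.integral_prod_right' (ν := dirLaw (Fin N))).measurable

lemma Lam_abs (hN : 0 < N) (hU : Pw U lo hi) (l : ℝ) (g : Fin m → Fin N → ℝ) (y : Fin N → ℝ) :
    Integrable (fun u => Real.exp (se U l g y u)) (dirLaw (Fin N)) ∧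
      |Lam U l g y| ≤ m * lb lo hi + √l * √(N:ℝ) * l1 y + |(N:ℝ) * l / 2| := by
  have : Nonempty (Fin N) := ⟨⟨0, hN⟩⟩
  have h := log_int_sub (P := dirLaw (Fin N)) (A := fun _ => (0:ℝ)) (B := se U l g y)
    (D := m * lb lo hi + √l * √(N:ℝ) * l1 y + |(N:ℝ) * l / 2|) (by simp)
    ((measurable_se hU.meas l).comp (f := fun u => ((g, y), u)) (by fun_prop)) ?_
  · simpa [Lam] using h
  filter_upwards [dirLaw_unit] with u hu
  rw [zero_sub, abs_neg, se, add_assoc]
  refine (abs_add_le _ _).trans (add_le_add ?_ ((abs_sub _ _).trans (add_le_add ?_ le_rfl)))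
  · exact (Finset.abs_sum_le_sum_abs _ _).trans ((Finset.sum_le_sum fun a _ => hU.abs_log _).trans (by simp))
  · rw [abs_mul, abs_of_nonneg (show 0 ≤ √l * √(N:ℝ) by positivity)]
    exact mul_le_mul_of_nonneg_left (by simpa using abs_dot_le (fun i => unit_coord hu i) y) (by positivity)

/-- the orthogonal maps act transitively and preserve the laws -/
lemma exists_rot {v w : Fin N → ℝ} (hv : dot v v = 1) (hw : dot w w = 1) :
    ∃ R : (Fin N → ℝ) → Fin N → ℝ, Measurable R ∧ R v = w ∧ (∀ a b, dot (R a) (R b) = dot a b) ∧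
      (∀ (a b : Fin N → ℝ) (k : ℝ), R (a + k • b) = R a + k • R b) ∧
      (gauss (Fin N)).map R = gauss (Fin N) ∧ (dirLaw (Fin N)).map R = dirLaw (Fin N) := by
  set V : Vec N := WithLp.toLp 2 v
  set W : Vec N := WithLp.toLp 2 w
  have hn : ‖V‖ = ‖W‖ := by simp only [V, W, Lim.norm_toLp, hv, hw]
  set L := Submodule.reflection (ℝ ∙ (V - W))ᗮ
  have hLV : L V = W := Submodule.reflection_sub hn
  set R := fun z : Fin N → ℝ => (L (WithLp.toLp 2 z)).ofLp
  have hofLp : Measurable (WithLp.ofLp : Vec N → Fin N → ℝ) := WithLp.measurable_ofLp 2 _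
  have htoLp : Measurable (WithLp.toLp 2 : (Fin N → ℝ) → Vec N) := by fun_prop
  have hm : Measurable R := hofLp.comp (L.continuous.measurable.comp htoLp)
  have hdot : ∀ a b, dot (R a) (R b) = dot a b := fun a b => by
    have e : ∀ p q : Vec N, dot p.ofLp q.ofLp = ⟪p, q⟫ := fun p q => by
      simp [dot, PiLp.inner_apply, mul_comm]
    show dot (L (WithLp.toLp 2 a)).ofLp (L (WithLp.toLp 2 b)).ofLp = dot (WithLp.toLp 2 a).ofLp (WithLp.toLp 2 b).ofLp
    rw [e, e, LinearIsometryEquiv.inner_map_map]
  have hadd : ∀ (a b : Fin N → ℝ) (k : ℝ), R (a + k • b) = R a + k • R b := fun a b k => by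
    simp [R, map_add, map_smul]
  have hg : (gauss (Fin N)).map R = gauss (Fin N) := by
    have e : R = WithLp.ofLp ∘ (L ∘ WithLp.toLp 2) := rfl
    rw [e, ← Measure.map_map hofLp (L.continuous.measurable.comp htoLp),
      ← Measure.map_map L.continuous.measurable htoLp, gauss_toLp, stdGaussian_map, ← gauss_toLp,
      Measure.map_map hofLp htoLp]
    exact Measure.map_id
  refine ⟨R, hm, by simp [R, V, W, hLV], hdot, hadd, hg, ?_⟩
  rw [dirLaw, Measure.map_map hm measurable_nd]
  conv_rhs => rw [← hg, Measure.map_map measurable_nd hm]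
  congr 1
  funext z
  have hk : ∀ (k : ℝ) (z : Fin N → ℝ), R (k • z) = k • R z := fun k z => by simp [R, map_smul]
  simp only [Function.comp, nd, hk, hdot]

section Finite

variable {U1 U2 : ℝ → ℝ} {L : ℝ} (hU : Sm U U1 U2 lo hi L)
include hU

lemma log_lip (x y : ℝ) : |Real.log (U x) - Real.log (U y)| ≤ L / lo * |x - y| := by
  have key : ∀ a b, Real.log (U a) - Real.log (U b) ≤ L / lo * |a - b| := fun a b => by
    have pa := hU.pos.trans_le (hU.ge a)
    have pb := hU.pos.trans_le (hU.ge b)
    rw [← Real.log_div pa.ne' pb.ne']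
    refine (Real.log_le_sub_one_of_pos (div_pos pa pb)).trans ?_
    rw [div_sub_one pb.ne', div_mul_eq_mul_div]
    exact div_le_div₀ (mul_nonneg hU.L_nonneg (abs_nonneg _)) ((le_abs_self _).trans (hU.lipU a b)) hU.pos (hU.ge b)
  rw [abs_le]
  have := key y x
  rw [abs_sub_comm y x] at this
  exact ⟨by linarith, key x y⟩

lemma se_lip (l : ℝ) (g : Fin m → Fin N → ℝ) (y : Fin N → ℝ) {u u' : Fin N → ℝ} {η : ℝ}
    (h : ∀ k, |u k - u' k| ≤ η) :
    |se U l g y u - se U l g y u'| ≤ η * (L / lo * ∑ a, l1 (g a) + √l * √(N:ℝ) * l1 y) := by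
  have hd : ∀ z : Fin N → ℝ, |dot u z - dot u' z| ≤ η * l1 z := fun z => by
    have e : dot u z - dot u' z = dot (u - u') z := by simp [dot, sub_mul, Finset.sum_sub_distrib]
    rw [e]; exact abs_dot_le h z
  rw [se, se, add_sub_add_comm, sub_sub_sub_cancel_right, ← Finset.sum_sub_distrib, ← mul_sub, mul_add,
    Finset.mul_sum, Finset.mul_sum]
  refine (abs_add_le _ _).trans (add_le_add ((Finset.abs_sum_le_sum_abs _ _).trans (Finset.sum_le_sum fun a _ => ?_)) ?_)
  · refine (log_lip hU _ _).trans ((mul_le_mul_of_nonneg_left (hd _) (div_nonneg hU.L_nonneg hU.pos.le)).trans_eq ?_)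
    ring
  · rw [abs_mul, abs_of_nonneg (show 0 ≤ √l * √(N:ℝ) by positivity)]
    exact (mul_le_mul_of_nonneg_left (hd y) (by positivity)).trans_eq (by ring)

end Finite

/-- a finite model of the sphere -/
lemma exists_geo (hN : 0 < N) {η : ℝ} (hη : 0 < η) :
    ∃ (S : Type) (_ : Fintype S) (_ : Nonempty S) (x : S → Fin N → ℝ) (c : S → ℝ), Geo x c ∧
      ∀ {lo hi L : ℝ} {U U1 U2 : ℝ → ℝ}, Sm U U1 U2 lo hi L → Pw U lo hi →
        ∀ (m : ℕ) (l : ℝ) (g : Fin m → Fin N → ℝ) (y : Fin N → ℝ),
          |ell x c U l g y - Lam U l g y| ≤ η * (L / lo * ∑ a, l1 (g a) + √l * √(N:ℝ) * l1 y) := by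
  have : Nonempty (Fin N) := ⟨⟨0, hN⟩⟩
  obtain ⟨S, hS, hne, W, a, Y, hW, ha, hY, hd, hint⟩ := exists_finite (dirLaw_unit (ι := Fin N)) hη
  set s := √(N:ℝ)
  have hs : 0 < s := Real.sqrt_pos.2 (by exact_mod_cast hN)
  refine ⟨S, hS, hne, fun t i => s * a t i, fun t => Real.log (W t), ⟨hN, fun t => ?_, ?_⟩, ?_⟩
  · have e : dot (fun i => s * a t i) (fun i => s * a t i) = s * s * dot (a t) (a t) := by
      simp only [dot, Finset.mul_sum]; exact Finset.sum_congr rfl fun i _ => by ring
    rw [e, ha, mul_one, Real.mul_self_sqrt (Nat.cast_nonneg N)]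
  · have := hint (fun _ => 1) continuous_const
    simp only [integral_const, probReal_univ, one_smul, mul_one] at this
    simp only [Real.exp_log (hW _), ← this]
  intro lo hi L U U1 U2 hU hUp m l g y
  have hxn : ∀ t, xn (fun t i => s * a t i) t = a t := fun t => funext fun i => by
    simp only [xn, s]; field_simp
  have e : ∀ t, zed (fun t i => s * a t i) (lp (fun t i => s * a t i) (fun t => Real.log (W t)) (fun _ : Fin m => U) g) l y t =
      Real.log (W t) + se U l g y (a t) := fun t => by
    simp only [zed, lp, se, hxn, Fintype.card_fin, dot, Finset.mul_sum, s]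
    rw [add_assoc]
    congr 3
    exact Finset.sum_congr rfl fun i _ => by ring
  have hc : Continuous fun u => Real.exp (se U l g y u) := by
    have hl : Continuous fun t => Real.log (U t) := hU.contU.log fun t => (hU.pos.trans_le (hU.ge t)).ne'
    refine Real.continuous_exp.comp (Continuous.add (continuous_finsetSum _ fun b _ => hl.comp ?_) ?_) <;>
      (unfold dot; fun_prop)
  have he : ell (fun t i => s * a t i) (fun t => Real.log (W t)) U l g y =
      Real.log (∫ u, Real.exp (se U l g y (Y u)) ∂dirLaw (Fin N)) := by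
    rw [ell, tt, hint (fun u => Real.exp (se U l g y u)) hc]
    refine congrArg Real.log (Finset.sum_congr rfl fun t _ => ?_)
    rw [e, Real.exp_add, Real.exp_log (hW t)]
  rw [he, abs_sub_comm]
  exact (log_int_sub (Lam_abs hN hUp l g y).1
    ((measurable_se hUp.meas l).comp (f := fun u => ((g, y), Y u)) (by fun_prop))
    (hd.mono fun u hu => se_lip hU l g y hu)).2

section Spread

variable (hN : 0 < N) (hU : Pw U lo hi)
include hN hU

omit hN in
lemma qU_int {v : Fin N → ℝ} (hv : dot v v = 1) :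
    IsProbabilityMeasure (qU v U) ∧ ∀ F : (Fin m → Fin N → ℝ) → ℝ,
      ∫ g, F g ∂Measure.pi (fun _ : Fin m => qU v U) = ∫ g, (∏ a, U (dot v (g a))) * F g ∂pg N m := by
  have hu : Measurable fun g => U (dot v g) := hU.meas.comp (by unfold dot; fun_prop)
  have hu0 : ∀ g, 0 ≤ U (dot v g) := fun g => (hU.pos.trans_le (hU.ge _)).le
  have hp : IsProbabilityMeasure (qU v U) := by
    refine ⟨?_⟩
    rw [qU, withDensity_apply _ MeasurableSet.univ, Measure.restrict_univ,
      ← ofReal_integral_eq_lintegral_ofReal, integral_arg hU.meas hv, hU.mean, ENNReal.ofReal_one]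
    · exact Integrable.of_bound hu.aestronglyMeasurable hi (Eventually.of_forall fun g => hU.abs_V _)
    · exact Eventually.of_forall hu0
  refine ⟨hp, fun F => ?_⟩
  have : IsProbabilityMeasure ((gauss (Fin N)).withDensity fun g => ENNReal.ofReal (U (dot v g))) := hp
  rw [show qU v U = (gauss (Fin N)).withDensity fun g => ENNReal.ofReal (U (dot v g)) from rfl,
    pi_withDensity (μ := gauss (Fin N)) (u := fun g => U (dot v g)) hu hu0 m,
    Teach.integral_withDensity_ofReal (u := fun g : Fin m → Fin N → ℝ => ∏ a, U (dot v (g a)))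
      (Finset.measurable_prod _ fun a _ => hu.comp (measurable_pi_apply a)) fun g => Finset.prod_nonneg fun a _ => hu0 _]
  rfl

/-- the planted mean on the sphere does not depend on the planted direction -/
lemma sphere_mean_eq {v w : Fin N → ℝ} (hv : dot v v = 1) (hw : dot w w = 1) (k l : ℝ) :
    ∫ g : Fin m → Fin N → ℝ, ∫ y, Lam U l g (y + k • w) ∂gauss (Fin N) ∂Measure.pi (fun _ : Fin m => qU w U) =
      ∫ g : Fin m → Fin N → ℝ, ∫ y, Lam U l g (y + k • v) ∂gauss (Fin N) ∂Measure.pi (fun _ : Fin m => qU v U) := by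
  obtain ⟨R, hRm, hRv, hRd, hRl, hRg, hRν⟩ := exists_rot hv hw
  have hLam : ∀ (g : Fin m → Fin N → ℝ) y, Lam U l (fun a => R (g a)) (R y) = Lam U l g y := fun g y => by
    unfold Lam
    refine congrArg Real.log ?_
    conv_lhs => rw [← hRν]
    have hme : Measurable fun u => Real.exp (se U l (fun a => R (g a)) (R y) u) :=
      (measurable_se hU.meas l).exp.comp (f := fun u => (((fun a => R (g a)), R y), u)) (by fun_prop)
    rw [integral_map hRm.aemeasurable hme.aestronglyMeasurable]
    exact integral_congr_ae (Eventually.of_forall fun u => by simp only [se, hRd])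
  rw [(qU_int hU hw).2, (qU_int hU hv).2]
  have hm2 : (Measure.pi fun _ : Fin m => gauss (Fin N)).map (fun g a => R (g a)) =
      Measure.pi fun _ : Fin m => gauss (Fin N) := by
    rw [Measure.pi_map_pi (f := fun _ => R) (fun _ => hRm.aemeasurable)]
    simp only [hRg]
  have hF : Measurable fun g : Fin m → Fin N → ℝ => ∫ y, Lam U l g (y + k • w) ∂gauss (Fin N) :=
    ((measurable_Lam hU.meas l).comp (measurable_fst.prodMk (measurable_snd.add_const _))).stronglyMeasurable.integral_prod_right'.measurable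
  unfold pg
  conv_lhs => rw [← hm2]
  have hP : Measurable fun g : Fin m → Fin N → ℝ =>
      (∏ a, U (dot w (g a))) * ∫ y, Lam U l g (y + k • w) ∂gauss (Fin N) :=
    (Finset.measurable_prod _ fun a _ => hU.meas.comp (by unfold dot; fun_prop)).mul hF
  have hc : Measurable fun (g : Fin m → Fin N → ℝ) (a : Fin m) => R (g a) :=
    measurable_pi_lambda _ fun a => hRm.comp (measurable_pi_apply a)
  rw [integral_map hc.aemeasurable hP.aestronglyMeasurable]
  refine integral_congr_ae (Eventually.of_forall fun g => ?_)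
  dsimp only
  congr 1
  · refine Finset.prod_congr rfl fun a _ => ?_
    rw [← hRv, hRd]
  · conv_lhs => rw [← hRg]
    have hme : Measurable fun y => Lam U l (fun a => R (g a)) (y + k • w) :=
      (measurable_Lam hU.meas l).comp (f := fun y => ((fun a => R (g a)), y + k • w)) (by fun_prop)
    rw [integral_map hRm.aemeasurable hme.aestronglyMeasurable]
    refine integral_congr_ae (Eventually.of_forall fun y => ?_)
    dsimp only
    rw [← hRv, ← hRl, hLam]

end Spread

/-- `E ‖z‖₁` -/
noncomputable def E1 (N : ℕ) : ℝ := ∫ y : Fin N → ℝ, l1 y ∂gauss (Fin N)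

lemma E1_spec (N : ℕ) : Integrable (fun y : Fin N → ℝ => l1 y) (gauss (Fin N)) ∧ 0 ≤ E1 N := by
  refine ⟨integrable_of_bound (C := 1) (M := 1) (by unfold l1; fun_prop) fun y => ?_, integral_nonneg fun y => l1_nonneg _⟩
  rw [one_mul, one_mul, abs_of_nonneg (l1_nonneg y)]
  linarith [Real.add_one_le_exp (l1 y)]

lemma l1_shift (a : Fin N → ℝ) :
    Integrable (fun y => l1 (y + a)) (gauss (Fin N)) ∧ ∫ y, l1 (y + a) ∂gauss (Fin N) ≤ E1 N + l1 a := by
  have hle : ∀ y : Fin N → ℝ, l1 (y + a) ≤ l1 y + l1 a := fun y => by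
    rw [l1, l1, l1, ← Finset.sum_add_distrib]; exact Finset.sum_le_sum fun i _ => abs_add_le _ _
  have i := (E1_spec N).1.add (integrable_const (l1 a))
  have h : Integrable (fun y => l1 (y + a)) (gauss (Fin N)) :=
    i.mono' (Continuous.aestronglyMeasurable (by unfold l1; fun_prop)) (Eventually.of_forall fun y => by
      rw [Real.norm_eq_abs, abs_of_nonneg (l1_nonneg _)]; exact hle y)
  refine ⟨h, (integral_mono h i hle).trans_eq ?_⟩
  rw [integral_add' (E1_spec N).1 (integrable_const _), integral_const, probReal_univ, one_smul, E1]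

/-- the shell of the Gaussian prior carries the sphere -/
lemma Lam_zero_le (hN : 0 < N) {δ : ℝ} (hδ0 : 0 < δ) (hδ : δ < 1) (hsh : 2 * K₂ ≤ δ ^ 2 * N) {l : ℝ}
    (hl : 0 ≤ l) (y : Fin N → ℝ) (g : Fin 0 → Fin N → ℝ) (U : ℝ → ℝ) :
    Lam U l g y ≤ lgz l y + (Real.log 2 + δ * (√l * N / 2 + l * N / 2)) + δ * √l / 2 * dot y y := by
  have hN0 : (0:ℝ) < N := by exact_mod_cast hN
  have : Nonempty (Fin N) := ⟨⟨0, hN⟩⟩
  set s := √(N:ℝ)
  have hs : 0 < s := Real.sqrt_pos.2 hN0
  have hss : s * s = N := Real.mul_self_sqrt hN0.le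
  set E := fun u : Fin N → ℝ => Real.exp (√l * s * dot u y - N * l / 2)
  set sh : ℝ → ℝ := fun r => if |r ^ 2 - N| ≤ N * δ then 1 else 0
  have hshm : Measurable sh := Measurable.ite (measurableSet_le (by fun_prop) measurable_const) measurable_const measurable_const
  have hsh01 : ∀ r, 0 ≤ sh r ∧ sh r ≤ 1 := fun r => by simp only [sh]; split_ifs <;> norm_num
  set ρ := ∫ r, sh r ∂radLaw (Fin N)
  have hρ : 1 / 2 ≤ ρ := by
    obtain ⟨ia, ba⟩ := integral_lin_sq (fun _ : Fin N => (1:ℝ)) (by simp)
    rw [Fintype.card_fin] at ba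
    have e : ∀ z : Fin N → ℝ, ∑ k, (1:ℝ) * (z k ^ 2 - 1) = dot z z - N := fun z => by
      simp [dot, Finset.sum_sub_distrib, sq]
    simp only [e] at ia ba
    have i1 : Integrable (fun z : Fin N → ℝ => sh √(dot z z)) (gauss (Fin N)) :=
      Integrable.of_bound (hshm.comp measurable_rad).aestronglyMeasurable 1 (Eventually.of_forall fun z => by
        rw [Real.norm_eq_abs, abs_of_nonneg (hsh01 _).1]; exact (hsh01 _).2)
    have h := integral_mono ((integrable_const (1:ℝ)).sub (ia.const_mul (1 / ((N:ℝ) * δ) ^ 2))) i1 fun z => ?_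
    · rw [integral_sub' (integrable_const _) (ia.const_mul _), integral_const_mul, integral_const, probReal_univ, one_smul] at h
      have eρ : ρ = ∫ z : Fin N → ℝ, sh √(dot z z) ∂gauss (Fin N) := by
        simp only [ρ, radLaw]; exact integral_map measurable_rad.aemeasurable hshm.aestronglyMeasurable
      have h2 : 1 / ((N:ℝ) * δ) ^ 2 * ∫ z : Fin N → ℝ, (dot z z - N) ^ 2 ∂gauss (Fin N) ≤ 1 / 2 := by
        refine (mul_le_mul_of_nonneg_left ba (by positivity)).trans ?_
        rw [div_mul_eq_mul_div, one_mul, div_le_iff₀ (by positivity)]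
        have := mul_le_mul_of_nonneg_right hsh hN0.le
        linarith
      linarith
    · simp only [Pi.sub_apply, sh]
      rw [Real.sq_sqrt (show 0 ≤ dot z z from Finset.sum_nonneg fun i _ => mul_self_nonneg _)]
      split_ifs with hc
      · linarith [show 0 ≤ 1 / ((N:ℝ) * δ) ^ 2 * (dot z z - N) ^ 2 by positivity]
      · have : ((N:ℝ) * δ) ^ 2 ≤ (dot z z - N) ^ 2 := by
          rw [← sq_abs (dot z z - N)]; exact pow_le_pow_left₀ (by positivity) (le_of_lt (not_le.1 hc)) 2
        have := (one_le_div (show 0 < ((N:ℝ) * δ) ^ 2 by positivity)).2 this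
        rw [div_mul_eq_mul_div, one_mul]
        linarith
  set err := δ * (√l * N / 2 + l * N / 2) + δ * √l / 2 * dot y y
  obtain ⟨iG, eG⟩ := (lgz_int (N := N) l hl).1 y
  have hEm : Measurable E := by simp only [E]; unfold dot; fun_prop
  have hEi : Integrable E (dirLaw (Fin N)) := by
    refine Integrable.of_bound hEm.aestronglyMeasurable (Real.exp (√l * s * l1 y)) (dirLaw_unit.mono fun u hu => ?_)
    rw [Real.norm_eq_abs, Real.abs_exp, Real.exp_le_exp]
    have h1 := mul_le_mul_of_nonneg_left ((le_abs_self _).trans (abs_dot_le (fun i => unit_coord hu i) y))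
      (show 0 ≤ √l * s by positivity)
    have : 0 ≤ (N:ℝ) * l / 2 := by positivity
    linarith
  have hpt : ∀ z : Fin N → ℝ, E (nd z) * sh √(dot z z) ≤
      Real.exp err * Real.exp (√l * dot z y - l * dot z z / 2) := fun z => by
    set r := √(dot z z)
    have hzz : 0 ≤ dot z z := Finset.sum_nonneg fun i _ => mul_self_nonneg _
    simp only [sh]
    split_ifs with hc
    · rw [mul_one, ← Real.exp_add, Real.exp_le_exp]
      have hrr : r * r = dot z z := Real.mul_self_sqrt hzz
      have hr0 : 0 ≤ r := Real.sqrt_nonneg _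
      obtain ⟨c1, c2⟩ := abs_le.1 hc
      have hr : 0 < r := by
        rcases hr0.eq_or_lt with h | h
        · exfalso; rw [← h] at c1; nlinarith
        · exact h
      set w := dot (nd z) y
      have ew : dot z y = r * w := by
        simp only [w, nd, dot, Pi.smul_apply, smul_eq_mul, Finset.mul_sum]
        refine Finset.sum_congr rfl fun i _ => ?_
        show z i * y i = r * (r⁻¹ * z i * y i)
        field_simp
      have hw : w ^ 2 ≤ dot y y := by
        have h1 : dot (nd z) (nd z) = 1 := by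
          have e1 : dot (nd z) (nd z) = r⁻¹ * r⁻¹ * dot z z := by
            simp only [nd, dot, Pi.smul_apply, smul_eq_mul, Finset.mul_sum]
            exact Finset.sum_congr rfl fun i _ => by simp only [r, dot]; ring
          rw [e1, ← hrr]; field_simp
        have h2 := Finset.sum_mul_sq_le_sq_mul_sq Finset.univ (nd z) y
        simp only [dot] at h1 ⊢
        simp only [sq] at h2
        rw [h1, one_mul] at h2
        simpa [w, dot, sq] using h2
      have hd : |r - s| ≤ s * δ := by
        refine le_of_mul_le_mul_right ?_ hs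
        refine (mul_le_mul_of_nonneg_left (le_add_of_nonneg_left hr0) (abs_nonneg (r - s))).trans ?_
        rw [show |r - s| * (r + s) = |r ^ 2 - N| by
          rw [← abs_of_pos (show 0 < r + s by linarith), ← abs_mul, ← hss]; ring_nf]
        refine hc.trans_eq ?_
        rw [← hss]; ring
      have hamgm : s * |w| ≤ (N + dot y y) / 2 := by
        have := two_mul_le_add_sq s |w|
        rw [sq_abs, sq, hss] at this
        linarith
      have h3 : √l * ((s - r) * w) ≤ √l * (δ * ((N + dot y y) / 2)) := by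
        refine mul_le_mul_of_nonneg_left ((le_abs_self _).trans ?_) (Real.sqrt_nonneg l)
        rw [abs_mul, abs_sub_comm]
        refine (mul_le_mul_of_nonneg_right hd (abs_nonneg w)).trans ?_
        rw [mul_comm s δ, mul_assoc]
        exact mul_le_mul_of_nonneg_left hamgm hδ0.le
      have h4 := mul_le_mul_of_nonneg_left c2 hl
      rw [ew]
      simp only [err]
      rw [sq] at h4
      rw [hrr] at h4
      linarith
    · rw [mul_zero]; positivity
  have hmap : ∫ z, E (nd z) * sh √(dot z z) ∂gauss (Fin N) = (∫ u, E u ∂dirLaw (Fin N)) * ρ := by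
    have h := integral_map (μ := gauss (Fin N)) (φ := fun z => (nd z, √(dot z z)))
      (measurable_nd.prodMk measurable_rad).aemeasurable
      (f := fun p : (Fin N → ℝ) × ℝ => E p.1 * sh p.2) ((hEm.comp measurable_fst).mul (hshm.comp measurable_snd)).aestronglyMeasurable
    rw [dirLaw_indep N hN, integral_prod_mul] at h
    exact h.symm
  have hi1 : Integrable (fun z => E (nd z) * sh √(dot z z)) (gauss (Fin N)) :=
    (iG.const_mul (Real.exp err)).mono' (((hEm.comp measurable_nd).mul (hshm.comp measurable_rad)).aestronglyMeasurable)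
      (Eventually.of_forall fun z => by
        rw [Real.norm_eq_abs, abs_of_nonneg (mul_nonneg (Real.exp_pos _).le (hsh01 _).1)]; exact hpt z)
  have h := integral_mono hi1 (iG.const_mul (Real.exp err)) hpt
  rw [hmap, integral_const_mul, eG, ← Real.exp_add] at h
  have hpos : 0 < ∫ u, E u ∂dirLaw (Fin N) := integral_exp_pos hEi
  have e : Lam U l g y = Real.log (∫ u, E u ∂dirLaw (Fin N)) := by simp [Lam, se, E, s]
  have h' := Real.log_le_log (mul_pos hpos (show 0 < ρ by linarith)) h
  rw [Real.log_mul hpos.ne' (by linarith), Real.log_exp] at h'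
  have hl2 : -Real.log 2 ≤ Real.log ρ := by
    rw [← Real.log_inv]; exact Real.log_le_log (by norm_num) (by linarith)
  rw [e]
  simp only [err] at h'
  linarith

section Model

variable {U1 U2 : ℝ → ℝ} {L : ℝ} (hU : Sm U U1 U2 lo hi L) (hUp : Pw U lo hi)
include hU hUp

/-- planted means are within `η` of those of the sphere -/
lemma pmean_close {S : Type} [Fintype S] [Nonempty S] {x : S → Fin N → ℝ} {c : S → ℝ} (hG : Geo x c)
    {η : ℝ} (hη : 0 ≤ η)
    (happ : ∀ (m : ℕ) (l : ℝ) (g : Fin m → Fin N → ℝ) (y : Fin N → ℝ),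
      |ell x c U l g y - Lam U l g y| ≤ η * (L / lo * ∑ a, l1 (g a) + √l * √(N:ℝ) * l1 y))
    {l : ℝ} (hl : 0 ≤ l) (s : S) :
    |pmean x c U m l s - ∫ g : Fin m → Fin N → ℝ, ∫ y, Lam U l g (y + (√l * √(N:ℝ)) • xn x s) ∂gauss (Fin N)
        ∂Measure.pi (fun _ : Fin m => qU (xn x s) U)| ≤
      η * (L / lo * (m * (hi * E1 N)) + √l * √(N:ℝ) * (E1 N + √l * √(N:ℝ) * N)) := by
  have hN0 : (0:ℝ) < N := by exact_mod_cast hG.pos
  have hv := xn_self hG s
  set v := xn x s
  have hQ := (qU_int (m := m) hUp hv).1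
  set Q := Measure.pi fun _ : Fin m => qU v U
  set a := (√l * √(N:ℝ)) • v
  have ea : (fun i => √l * x s i) = a := funext fun i => by
    simp only [a, v, Pi.smul_apply, smul_eq_mul, xn]
    field_simp
  have ha : l1 a ≤ √l * √(N:ℝ) * N := by
    refine (Finset.sum_le_sum fun i _ => show |a i| ≤ √l * √(N:ℝ) from ?_).trans_eq (by simp; ring)
    rw [← ea, abs_mul, abs_of_nonneg (Real.sqrt_nonneg l)]
    exact mul_le_mul_of_nonneg_left (hG.bd s i) (Real.sqrt_nonneg l)
  obtain ⟨ila, hla⟩ := l1_shift a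
  set R := E1 N + √l * √(N:ℝ) * N
  have hR : ∫ y, l1 (y + a) ∂gauss (Fin N) ≤ R := hla.trans (by linarith)
  have hL0 : 0 ≤ L / lo := div_nonneg hU.L_nonneg hU.pos.le
  set c1 := √l * √(N:ℝ)
  have hc1 : 0 ≤ c1 := by positivity
  have hLm : Measurable fun p : (Fin m → Fin N → ℝ) × (Fin N → ℝ) => Lam U l p.1 (p.2 + a) :=
    (measurable_Lam hUp.meas l).comp (measurable_fst.prodMk (measurable_snd.add_const a))
  set K := (m:ℝ) * lb lo hi + |(N:ℝ) * l / 2|
  have iL : ∀ g : Fin m → Fin N → ℝ, Integrable (fun y => Lam U l g (y + a)) (gauss (Fin N)) := fun g =>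
    ((integrable_const K).add (ila.const_mul c1)).mono'
      (hLm.comp (measurable_const.prodMk measurable_id)).aestronglyMeasurable (Eventually.of_forall fun y => by
        rw [Real.norm_eq_abs, Pi.add_apply]
        linarith [(Lam_abs hG.pos hUp l g (y + a)).2])
  have bL : ∀ g : Fin m → Fin N → ℝ, |∫ y, Lam U l g (y + a) ∂gauss (Fin N)| ≤ K + c1 * R := fun g => by
    refine abs_integral_le_integral_abs.trans ((integral_mono (iL g).abs ((integrable_const K).add (ila.const_mul c1))
      fun y => by rw [Pi.add_apply]; linarith [(Lam_abs hG.pos hUp l g (y + a)).2]).trans ?_)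
    rw [integral_add' (integrable_const _) (ila.const_mul _), integral_const, probReal_univ, one_smul, integral_const_mul]
    linarith [mul_le_mul_of_nonneg_left hR hc1]
  have hEm : Measurable fun p : (Fin m → Fin N → ℝ) × (Fin N → ℝ) => ell x c U l p.1 (p.2 + a) := meas_ell hUp a
  set C := Real.log (Fintype.card S) + (lpB c m lo hi + Fintype.card (Fin N) * |l|)
  have iE : ∀ g : Fin m → Fin N → ℝ, Integrable (fun y => ell x c U l g (y + a)) (gauss (Fin N)) := fun g =>
    ((integrable_const C).add (ila.const_mul (√|l| * |‖x‖|))).mono'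
      (hEm.comp (measurable_const.prodMk measurable_id)).aestronglyMeasurable (Eventually.of_forall fun y => by
        rw [Real.norm_eq_abs, Pi.add_apply]
        linarith [ell_abs (l := l) hG hUp g a y])
  have bE : ∀ g : Fin m → Fin N → ℝ, |∫ y, ell x c U l g (y + a) ∂gauss (Fin N)| ≤ C + √|l| * |‖x‖| * R := fun g => by
    refine abs_integral_le_integral_abs.trans ((integral_mono (iE g).abs ((integrable_const C).add (ila.const_mul (√|l| * |‖x‖|)))
      fun y => by rw [Pi.add_apply]; linarith [ell_abs (l := l) hG hUp g a y]).trans ?_)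
    rw [integral_add' (integrable_const _) (ila.const_mul _), integral_const, probReal_univ, one_smul, integral_const_mul]
    linarith [mul_le_mul_of_nonneg_left hR (show 0 ≤ √|l| * |‖x‖| by positivity)]
  have oL : Integrable (fun g => ∫ y, Lam U l g (y + a) ∂gauss (Fin N)) Q :=
    Integrable.of_bound hLm.stronglyMeasurable.integral_prod_right'.aestronglyMeasurable _
      (Eventually.of_forall fun g => by rw [Real.norm_eq_abs]; exact bL g)
  have oE : Integrable (fun g => ∫ y, ell x c U l g (y + a) ∂gauss (Fin N)) Q :=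
    Integrable.of_bound hEm.stronglyMeasurable.integral_prod_right'.aestronglyMeasurable _
      (Eventually.of_forall fun g => by rw [Real.norm_eq_abs]; exact bE g)
  have iq : Integrable (fun g : Fin N → ℝ => l1 g) (qU v U) ∧ ∫ g, l1 g ∂qU v U ≤ hi * E1 N := by
    have hu : Measurable fun g => U (dot v g) := hUp.meas.comp (by unfold dot; fun_prop)
    have hu0 : ∀ g, 0 ≤ U (dot v g) := fun g => (hUp.pos.trans_le (hUp.ge _)).le
    have hlm : Measurable fun g : Fin N → ℝ => l1 g := by unfold l1; fun_prop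
    have hp : Integrable (fun g => U (dot v g) * l1 g) (gauss (Fin N)) :=
      ((E1_spec N).1.const_mul hi).mono' (hu.mul hlm).aestronglyMeasurable (Eventually.of_forall fun g => by
        rw [Real.norm_eq_abs, abs_mul, abs_of_nonneg (l1_nonneg g)]
        exact mul_le_mul_of_nonneg_right (hUp.abs_V _) (l1_nonneg g))
    constructor
    · rw [qU, integrable_withDensity_iff hu.ennreal_ofReal (Eventually.of_forall fun g => ENNReal.ofReal_lt_top)]
      simpa only [ENNReal.toReal_ofReal (hu0 _), mul_comm] using hp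
    · rw [qU, Teach.integral_withDensity_ofReal hu hu0, E1, ← integral_const_mul]
      exact integral_mono hp ((E1_spec N).1.const_mul hi) fun g => mul_le_mul_of_nonneg_right (hUp.le _) (l1_nonneg g)
  have is : ∀ b : Fin m, Integrable (fun g : Fin m → Fin N → ℝ => l1 (g b)) Q := fun b =>
    integrable_comp_eval (μ := fun _ : Fin m => qU v U) (i := b) (f := fun g : Fin N → ℝ => l1 g) iq.1
  have iD : Integrable (fun g : Fin m → Fin N → ℝ => η * (L / lo * ∑ b, l1 (g b) + c1 * R)) Q :=
    (((integrable_finsetSum _ fun b _ => is b).const_mul _).add (integrable_const _)).const_mul _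
  rw [pmean, ea, ← integral_sub oE oL]
  refine abs_integral_le_integral_abs.trans ((integral_mono (oE.sub oL).abs iD fun g => ?_).trans ?_)
  · rw [Pi.sub_apply, ← integral_sub (iE g) (iL g)]
    refine abs_integral_le_integral_abs.trans ((integral_mono ((iE g).sub (iL g)).abs
      (((integrable_const (L / lo * ∑ b, l1 (g b))).add (ila.const_mul c1)).const_mul η) fun y => happ m l g (y + a)).trans ?_)
    rw [integral_const_mul, integral_add' (integrable_const _) (ila.const_mul _), integral_const, probReal_univ,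
      one_smul, integral_const_mul]
    exact mul_le_mul_of_nonneg_left (by linarith [mul_le_mul_of_nonneg_left hR hc1]) hη
  · rw [integral_const_mul, integral_add ((integrable_finsetSum _ fun b _ => is b).const_mul _) (integrable_const _),
      integral_const_mul, integral_finsetSum _ fun b _ => is b, integral_const, probReal_univ, one_smul]
    refine mul_le_mul_of_nonneg_left (add_le_add (mul_le_mul_of_nonneg_left ?_ hL0) le_rfl) hη
    refine (Finset.sum_le_sum fun b _ => show _ ≤ hi * E1 N from ?_).trans_eq (by simp)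
    rw [integral_comp_eval (μ := fun _ : Fin m => qU v U) (i := b) (f := fun g : Fin N → ℝ => l1 g) iq.1.aestronglyMeasurable]
    exact iq.2

/-- a finite model with all the properties needed -/
lemma finite_model (hN : 0 < N) (M : ℕ) {T e δ : ℝ} (hT : 0 ≤ T) (he : 0 < e) (hδ0 : 0 < δ) (hδ : δ < 1)
    (hsh : 2 * K₂ ≤ δ ^ 2 * N) :
    ∃ (S : Type) (_ : Fintype S) (_ : Nonempty S) (x : S → Fin N → ℝ) (c : S → ℝ), Geo x c ∧
      (∀ m ≤ M, ∀ l, 0 ≤ l → l ≤ T → Spread x c U m l) ∧
      (∀ l, 0 ≤ l → l ≤ T → k0 x c l ≤ J l + Real.log 2 / N + δ * (√T + T + √T * T) + e) ∧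
      |∫ g, lz x c U g ∂pg N M - freeM (fun t => Real.log (U t)) (dirLaw (Fin N)) M| ≤ e := by
  have hN0 : (0:ℝ) < N := by exact_mod_cast hN
  have hE := (E1_spec N).2
  have hL0 : 0 ≤ L / lo := div_nonneg hU.L_nonneg hU.pos.le
  set c1 := √T * √(N:ℝ)
  set D := L / lo * (M * (hi * E1 N)) + L / lo * (M * E1 N) + c1 * (E1 N + c1 * N) + 1
  have hD : 0 < D := by have := hUp.hi_pos; positivity
  set η := min e (√(N:ℝ) / 2) / D
  have hη : 0 < η := div_pos (lt_min he (by positivity)) hD
  have hηD : η * D ≤ e ∧ η * D ≤ √(N:ℝ) / 2 := by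
    rw [show η * D = min e (√(N:ℝ) / 2) from div_mul_cancel₀ _ hD.ne']
    exact ⟨min_le_left _ _, min_le_right _ _⟩
  obtain ⟨S, hS, hne, x, c, hG, happ⟩ := exists_geo hN hη
  have happ := fun m l g y => happ hU hUp m l g y
  have hcl : ∀ l, l ≤ T → √l * √(N:ℝ) ≤ c1 := fun l h =>
    mul_le_mul_of_nonneg_right (Real.sqrt_le_sqrt h) (Real.sqrt_nonneg _)
  have hM0 : 0 ≤ L / lo * ((M:ℝ) * E1 N) := by positivity
  have hMhi : 0 ≤ L / lo * ((M:ℝ) * (hi * E1 N)) := by have := hUp.hi_pos; positivity
  refine ⟨S, hS, hne, x, c, hG, fun m hm l hl hlT s t => ?_, fun l hl hlT => ?_, ?_⟩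
  · have hs' := pmean_close (m := m) hU hUp hG hη.le happ hl s
    have ht' := pmean_close (m := m) hU hUp hG hη.le happ hl t
    have heq := sphere_mean_eq (m := m) hN hUp (xn_self hG t) (xn_self hG s) (√l * √(N:ℝ)) l
    rw [heq] at hs'
    have hb : η * (L / lo * (m * (hi * E1 N)) + √l * √(N:ℝ) * (E1 N + √l * √(N:ℝ) * N)) ≤ √(N:ℝ) / 2 := by
      refine (mul_le_mul_of_nonneg_left ?_ hη.le).trans hηD.2
      have h1 : L / lo * ((m:ℝ) * (hi * E1 N)) ≤ L / lo * ((M:ℝ) * (hi * E1 N)) :=
        mul_le_mul_of_nonneg_left (mul_le_mul_of_nonneg_right (by exact_mod_cast hm) (mul_nonneg hUp.hi_pos.le hE)) hL0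
      have h2 : √l * √(N:ℝ) * (E1 N + √l * √(N:ℝ) * N) ≤ c1 * (E1 N + c1 * N) := by
        have := hcl l hlT
        gcongr
      simp only [D]; linarith
    obtain ⟨a1, a2⟩ := abs_le.1 (hs'.trans hb)
    obtain ⟨b1, b2⟩ := abs_le.1 (ht'.trans hb)
    rw [abs_le]; constructor <;> linarith
  · set E := η * (√l * √(N:ℝ))
    have hk := k0_upper hG hl (A := Real.log 2 + δ * (√l * N / 2 + l * N / 2)) (B := δ * √l / 2) (E := E)
      (show 0 ≤ E by positivity) (I := E1 N) le_rfl fun y => ?_
    · have hE' : E * (E1 N + √l * ((N:ℝ) * √(N:ℝ))) ≤ e * N := by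
        have h1 : E * (E1 N + √l * ((N:ℝ) * √(N:ℝ))) ≤ η * D := by
          rw [show E * (E1 N + √l * ((N:ℝ) * √(N:ℝ))) = η * (√l * √(N:ℝ) * (E1 N + √l * √(N:ℝ) * N)) by simp only [E]; ring]
          refine mul_le_mul_of_nonneg_left ?_ hη.le
          have h2 : √l * √(N:ℝ) * (E1 N + √l * √(N:ℝ) * N) ≤ c1 * (E1 N + c1 * N) := by
            have := hcl l hlT
            gcongr
          simp only [D]; linarith
        exact (h1.trans hηD.1).trans (le_mul_of_one_le_right he.le (by exact_mod_cast hN))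
      have hδb : δ * (√l * N / 2 + l * N / 2) + δ * √l / 2 * ((N:ℝ) + l * N) ≤ N * (δ * (√T + T + √T * T)) := by
        have hs := Real.sqrt_le_sqrt hlT
        rw [show δ * (√l * N / 2 + l * N / 2) + δ * √l / 2 * ((N:ℝ) + l * N) = N * (δ * (√l + l / 2 + √l * l / 2)) by ring]
        refine mul_le_mul_of_nonneg_left (mul_le_mul_of_nonneg_left ?_ hδ0.le) hN0.le
        have := mul_le_mul hs hlT hl (Real.sqrt_nonneg T)
        linarith [mul_nonneg (Real.sqrt_nonneg l) hl]
      refine le_of_mul_le_mul_left (hk.trans ?_) hN0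
      rw [show (N:ℝ) * (J l + Real.log 2 / N + δ * (√T + T + √T * T) + e) =
        N * J l + Real.log 2 + N * (δ * (√T + T + √T * T)) + e * N by field_simp]
      linarith
    · have e0 : Real.log (tt (zed x c l y)) = ell x c U l (fun a : Fin 0 => a.elim0) y := by
        rw [ell, show lp x c (fun _ : Fin 0 => U) (fun a : Fin 0 => a.elim0) = c from funext fun s => by simp [lp]]
      have h1 := (abs_le.1 (happ 0 l (fun a : Fin 0 => a.elim0) y)).2
      have h2 := Lam_zero_le hN hδ0 hδ hsh hl y (fun a : Fin 0 => a.elim0) U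
      simp only [Finset.univ_eq_empty, Finset.sum_empty, mul_zero, zero_add] at h1
      rw [e0]
      simp only [E]
      linarith
  · have ef : ∀ g : Fin M → Fin N → ℝ, logZ (fun t => Real.log (U t)) (dirLaw (Fin N)) g = Lam U 0 g 0 := fun g => by
      simp [logZ, Lam, se, energy]
    rw [freeM]
    simp only [ef]
    have i2 : Integrable (fun g => Lam U 0 g 0) (pg N M) :=
      Integrable.of_bound ((measurable_Lam hUp.meas 0).comp (f := fun g => (g, 0)) (by fun_prop)).aestronglyMeasurable
        (M * lb lo hi) (Eventually.of_forall fun g => by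
          rw [Real.norm_eq_abs]
          simpa [l1] using (Lam_abs hN hUp 0 g (0 : Fin N → ℝ)).2)
    have is : ∀ b : Fin M, Integrable (fun g : Fin M → Fin N → ℝ => l1 (g b)) (pg N M) := fun b =>
      integrable_comp_eval (μ := fun _ : Fin M => gauss (Fin N)) (i := b) (f := fun g : Fin N → ℝ => l1 g) (E1_spec N).1
    have i1 : Integrable (fun g => lz x c U g) (pg N M) :=
      Integrable.of_bound (meas_lz hUp).aestronglyMeasurable _ (Eventually.of_forall fun g => by
        rw [Real.norm_eq_abs]; exact abs_lz hG hUp g)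
    have iD := (((integrable_finsetSum Finset.univ fun b _ => is b).const_mul (L / lo))).const_mul η
    change |∫ g, lz x c U g ∂pg N M - ∫ g, Lam U 0 g 0 ∂pg N M| ≤ e
    rw [← integral_sub i1 i2]
    refine abs_integral_le_integral_abs.trans ((integral_mono (i1.sub i2).abs iD fun g => ?_).trans ?_)
    · simpa [lz, l1] using happ M 0 g 0
    · rw [integral_const_mul, integral_const_mul, integral_finsetSum _ fun b _ => is b]
      have e1 : ∀ b : Fin M, ∫ g : Fin M → Fin N → ℝ, l1 (g b) ∂pg N M = E1 N := fun b =>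
        integral_comp_eval (μ := fun _ : Fin M => gauss (Fin N)) (i := b) (f := fun g : Fin N → ℝ => l1 g) (E1_spec N).1.aestronglyMeasurable
      simp only [e1, Finset.sum_const, Finset.card_univ, Fintype.card_fin, nsmul_eq_mul]
      refine le_trans (mul_le_mul_of_nonneg_left ?_ hη.le) hηD.1
      simp only [D]
      linarith [show 0 ≤ c1 * (E1 N + c1 * N) by positivity]

end Model

end Vale.Agent.P157.Gen
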