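import Vale.Agent.P157.Gen.Sphere
import Vale.Agent.P157.Teach.Annealed
import Vale.Agent.P157.Upper

/-! The exact annealed threshold on the sphere for bounded measurable potentials. -/

open MeasureTheory ProbabilityTheory Set Filter
open scoped Topology RealInnerProductSpace
open Vale.Agent.P157.Teach (Sm Pw Psi rho lb lb_nonneg wgt wgt_pw exists_smooth Psi_stable Rg tendsto_Rg pg)
open Vale.Agent.P157.Lim (dirLaw freeM K₂ pressure_eq_freeM)

namespace Vale.Agent.P157.Gen

/-- the value of the Gaussian channel against overlap `q` -/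
noncomputable def G0 (q : ℝ) : ℝ := (Real.log (1 - q) + q) / 2

lemma G0_le {b q : ℝ} (hb : 0 ≤ b) (hq : q < 1) : G0 q ≤ J b - b * q / 2 := by
  have h1 : 0 < 1 + b := by linarith
  have h2 : 0 < 1 - q := by linarith
  have h := Real.log_le_sub_one_of_pos (mul_pos h1 h2)
  rw [Real.log_mul h1.ne' h2.ne'] at h
  unfold G0 J
  linarith

lemma G0_eq {b : ℝ} (hb : 0 ≤ b) : b / (1 + b) ∈ Ico (0:ℝ) 1 ∧ J b - b * (b / (1 + b)) / 2 = G0 (b / (1 + b)) := by
  have h1 : 0 < 1 + b := by linarith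
  refine ⟨⟨by positivity, by rw [div_lt_one h1]; linarith⟩, ?_⟩
  rw [G0, show 1 - b / (1 + b) = (1 + b)⁻¹ by field_simp; ring, Real.log_inv, J]
  field_simp
  ring

/-- parameters making the errors of the paths small -/
lemma small_err {C α r₀ s₀ e : ℝ} (hC : 0 ≤ C) (hα : 0 ≤ α) (hr₀ : 0 ≤ r₀) (hs₀ : 0 < s₀) (he : 0 < e) :
    ∃ r η : ℝ, 0 < r ∧ 0 < η ∧ C * α * r ≤ e ∧ (C * α / r + r₀ / 2) * (4 * η / s₀) ≤ e := by
  obtain ⟨r, hr, hr'⟩ : ∃ r : ℝ, 0 < r ∧ C * α * r ≤ e :=
    ⟨e / (C * α + 1), by positivity, by rw [mul_comm]; exact div_choice he.le (by positivity)⟩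
  set A := (C * α / r + r₀ / 2) * (4 / s₀)
  have hA : 0 ≤ A := by positivity
  refine ⟨r, e / (A + 1), hr, by positivity, hr', ?_⟩
  rw [show (C * α / r + r₀ / 2) * (4 * (e / (A + 1)) / s₀) = e / (A + 1) * A by simp only [A]; ring]
  exact div_choice he.le hA

section Transfer

variable {N M : ℕ} {μ : Measure (Vec N)}

/-- potentials close in `L¹` have close free energies -/
lemma Phi_close (hN : 0 < N) (hμ : Carried μ) {f h : ℝ → ℝ} {B θ : ℝ} (hf : Measurable f)
    (hfB : ∀ t, |f t| ≤ B) (hh : Measurable h) (hhB : ∀ t, |h t| ≤ B) (hθ0 : 0 < θ) (hθ : θ ≤ 1 / 2) :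
    Phi μ f M ≤ Phi μ h M + M * (2 * θ * B + Real.exp (2 * B / θ) * ∫ t, |f t - h t| ∂gaussianReal 0 1) := by
  have := hμ.prob
  have hB : 0 ≤ B := (abs_nonneg _).trans (hfB 0)
  have h1θ : 0 < 1 - θ := by linarith
  set h' := fun t => h t / (1 - θ)
  set d := fun t => (f t - h t) / θ
  have hh'm : Measurable h' := hh.div_const _
  have hdm : Measurable d := (hf.sub hh).div_const _
  have hh'B : ∀ t, |h' t| ≤ B / (1 - θ) := fun t => by
    simp only [h', abs_div, abs_of_pos h1θ]; exact div_le_div_of_nonneg_right (hhB t) h1θ.le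
  have hdB : ∀ t, |d t| ≤ 2 * B / θ := fun t => by
    simp only [d, abs_div, abs_of_pos hθ0]
    exact div_le_div_of_nonneg_right ((abs_sub _ _).trans (by linarith [hfB t, hhB t])) hθ0.le
  have key : ∀ g : Fin M → Vec N, Real.log (partition μ f g) ≤
      Real.log (partition μ h g) + M * (2 * θ * B) + θ * Real.log (partition μ d g) := by
    intro g
    set A := partition μ h' g
    set D := partition μ d g
    have hA := partition_pos (μ := μ) hh'm hh'B g
    have hD := partition_pos (μ := μ) hdm hdB g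
    have hC : partition μ f g ≤ Real.exp ((1 - θ) * Real.log A + θ * Real.log D) := by
      have hpt : ∀ x : Vec N, Real.exp (∑ a, f (⟪g a, x⟫ / √(N:ℝ))) ≤
          Real.exp ((1 - θ) * Real.log A + θ * Real.log D) *
            ((1 - θ) / A * Real.exp (∑ a, h' (⟪g a, x⟫ / √(N:ℝ))) + θ / D * Real.exp (∑ a, d (⟪g a, x⟫ / √(N:ℝ)))) := by
        intro x
        set u := ∑ a, h' (⟪g a, x⟫ / √(N:ℝ))
        set v := ∑ a, d (⟪g a, x⟫ / √(N:ℝ))
        have e : ∑ a, f (⟪g a, x⟫ / √(N:ℝ)) = (1 - θ) * u + θ * v := by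
          simp only [u, v, h', d, Finset.mul_sum, ← Finset.sum_add_distrib]
          exact Finset.sum_congr rfl fun a _ => by field_simp; ring
        have hc := convexOn_exp.2 (mem_univ (u - Real.log A)) (mem_univ (v - Real.log D)) h1θ.le hθ0.le
          (sub_add_cancel 1 θ)
        have eA : Real.exp (Real.log A) = A := Real.exp_log hA
        have eD : Real.exp (Real.log D) = D := Real.exp_log hD
        simp only [smul_eq_mul, Real.exp_sub, eA, eD] at hc
        rw [e, show (1 - θ) * u + θ * v = ((1 - θ) * Real.log A + θ * Real.log D) +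
          ((1 - θ) * (u - Real.log A) + θ * (v - Real.log D)) by ring, Real.exp_add]
        exact mul_le_mul_of_nonneg_left (hc.trans (le_of_eq (by ring))) (Real.exp_pos _).le
      have iA := (integrable_energy (μ := μ) hh'm hh'B g).const_mul ((1 - θ) / A)
      have iD := (integrable_energy (μ := μ) hdm hdB g).const_mul (θ / D)
      refine (integral_mono (integrable_energy hf hfB g) ((iA.add iD).const_mul _) hpt).trans (le_of_eq ?_)
      rw [integral_const_mul, integral_add' iA iD, integral_const_mul, integral_const_mul]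
      show _ * ((1 - θ) / A * A + θ / D * D) = _
      rw [div_mul_cancel₀ _ hA.ne', div_mul_cancel₀ _ hD.ne']
      ring
    have h1 := Real.log_le_log (partition_pos hf hfB g) hC
    rw [Real.log_exp] at h1
    have h2 : A ≤ Real.exp ((M:ℝ) * (θ / (1 - θ) * B)) * partition μ h g := by
      simp only [A, partition, ← integral_const_mul]
      refine integral_mono (integrable_energy hh'm hh'B g) ((integrable_energy hh hhB g).const_mul _) fun x => ?_
      rw [← Real.exp_add, Real.exp_le_exp]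
      have : ∀ t, h' t ≤ θ / (1 - θ) * B + h t := fun t => by
        have e : h' t = θ / (1 - θ) * h t + h t := by simp only [h']; field_simp; ring
        rw [e]
        linarith [mul_le_mul_of_nonneg_left (abs_le.1 (hhB t)).2 (div_nonneg hθ0.le h1θ.le)]
      refine (Finset.sum_le_sum fun a _ => this _).trans (le_of_eq ?_)
      simp [Finset.sum_add_distrib]
    have h3 := Real.log_le_log hA h2
    rw [Real.log_mul (Real.exp_pos _).ne' (partition_pos hh hhB g).ne', Real.log_exp] at h3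
    have h4 := mul_le_mul_of_nonneg_left h3 h1θ.le
    have h5 : (1 - θ) * ((M:ℝ) * (θ / (1 - θ) * B)) = M * (θ * B) := by field_simp
    have h6 := mul_le_mul_of_nonneg_left (abs_le.1 (abs_log_partition (μ := μ) hh hhB g)).1 hθ0.le
    linarith
  have i1 := integrable_log_partition (μ := μ) (M := M) hh hhB
  have i2 := integrable_log_partition (μ := μ) (M := M) hdm hdB
  have hPhi : Phi μ f M ≤ Phi μ h M + M * (2 * θ * B) + θ * Phi μ d M := by
    refine (integral_mono (integrable_log_partition hf hfB) ((i1.add (integrable_const _)).add (i2.const_mul θ)) key).trans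
      (le_of_eq ?_)
    rw [integral_add' (i1.add (integrable_const _)) (i2.const_mul θ), integral_add' i1 (integrable_const _),
      integral_const, probReal_univ, one_smul, integral_const_mul]
    rfl
  have hg := gap_nonneg hN hμ hdm hdB M
  rw [gap] at hg
  have ha : ann d ≤ Real.exp (2 * B / θ) * ((∫ t, |f t - h t| ∂gaussianReal 0 1) / θ) :=
    ann_remainder hdm hdB (le_of_eq (by
      rw [← integral_div]
      exact integral_congr_ae (Eventually.of_forall fun t => by simp only [d, abs_div, abs_of_pos hθ0])))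
  have h7 := mul_le_mul_of_nonneg_left (show Phi μ d M ≤ M * ann d by linarith) hθ0.le
  have h8 := mul_le_mul_of_nonneg_left (mul_le_mul_of_nonneg_left ha (Nat.cast_nonneg (α := ℝ) M)) hθ0.le
  rw [show θ * ((M:ℝ) * (Real.exp (2 * B / θ) * ((∫ t, |f t - h t| ∂gaussianReal 0 1) / θ))) =
    M * (Real.exp (2 * B / θ) * ∫ t, |f t - h t| ∂gaussianReal 0 1) by field_simp] at h8
  linarith

end Transfer

variable {lo hi : ℝ} {U V V1 V2 : ℝ → ℝ} {L : ℝ}

lemma log_meas (hU : Pw U lo hi) : Measurable fun t => Real.log (U t) := Real.measurable_log.comp hU.meas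

/-- the free energy of a weight on the sphere -/
noncomputable def phiU (U : ℝ → ℝ) (N M : ℕ) : ℝ := Phi (sphereUniform N) (fun t => Real.log (U t)) M / N

lemma phiU_close {α θ : ℝ} (hU : Pw U lo hi) (hV : Pw V lo hi) {N M : ℕ} (hN : 0 < N) (hM : (M:ℝ) ≤ α * N)
    (hθ0 : 0 < θ) (hθ : θ ≤ 1 / 2) :
    |phiU U N M - phiU V N M| ≤
      α * (2 * θ * lb lo hi + Real.exp (2 * lb lo hi / θ) / lo * ∫ t, |U t - V t| ∂gaussianReal 0 1) := by
  have hN0 : (0:ℝ) < N := by exact_mod_cast hN
  have key : ∀ {P Q : ℝ → ℝ}, Pw P lo hi → Pw Q lo hi → phiU P N M - phiU Q N M ≤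
      α * (2 * θ * lb lo hi + Real.exp (2 * lb lo hi / θ) / lo * ∫ t, |P t - Q t| ∂gaussianReal 0 1) := by
    intro P Q hP hQ
    have h := Phi_close (M := M) hN (carried_sphere hN) (log_meas hP) hP.abs_log (log_meas hQ) hQ.abs_log hθ0 hθ
    have iPQ : Integrable (fun t => |P t - Q t|) (gaussianReal 0 1) :=
      integrable_bdd (hP.meas.sub hQ.meas).abs (C := hi + hi) fun t => by
        rw [abs_abs]; exact (abs_sub _ _).trans (add_le_add (hP.abs_V t) (hQ.abs_V t))
    have hI : ∫ t, |Real.log (P t) - Real.log (Q t)| ∂gaussianReal 0 1 ≤ (∫ t, |P t - Q t| ∂gaussianReal 0 1) / lo := by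
      rw [← integral_div]
      refine integral_mono_of_nonneg (Eventually.of_forall fun t => abs_nonneg _) (iPQ.div_const lo)
        (Eventually.of_forall fun t => ?_)
      have k : ∀ a b : ℝ, lo ≤ a → lo ≤ b → Real.log a - Real.log b ≤ |a - b| / lo := fun a b ha hb => by
        have pa := hP.pos.trans_le ha
        have pb := hP.pos.trans_le hb
        rw [← Real.log_div pa.ne' pb.ne']
        refine (Real.log_le_sub_one_of_pos (div_pos pa pb)).trans ?_
        rw [div_sub_one pb.ne']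
        exact div_le_div₀ (abs_nonneg _) (le_abs_self _) hP.pos hb
      rw [abs_le]
      have := k _ _ (hQ.ge t) (hP.ge t)
      rw [abs_sub_comm] at this
      exact ⟨by linarith, k _ _ (hP.ge t) (hQ.ge t)⟩
    have h2 := mul_le_mul_of_nonneg_left hI (Real.exp_pos (2 * lb lo hi / θ)).le
    rw [show Real.exp (2 * lb lo hi / θ) * ((∫ t, |P t - Q t| ∂gaussianReal 0 1) / lo) =
      Real.exp (2 * lb lo hi / θ) / lo * ∫ t, |P t - Q t| ∂gaussianReal 0 1 by ring] at h2
    simp only [phiU]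
    rw [← sub_div, div_le_iff₀ hN0]
    have hlb := lb_nonneg (lo := lo) (hi := hi)
    have h3 : 0 ≤ 2 * θ * lb lo hi + Real.exp (2 * lb lo hi / θ) / lo * ∫ t, |P t - Q t| ∂gaussianReal 0 1 :=
      add_nonneg (by positivity) (mul_nonneg (div_nonneg (Real.exp_pos _).le hP.pos.le) (integral_nonneg fun t => abs_nonneg _))
    have h4 := mul_le_mul_of_nonneg_right hM h3
    have h5 := mul_le_mul_of_nonneg_left (add_le_add (le_refl (2 * θ * lb lo hi)) h2) (Nat.cast_nonneg (α := ℝ) M)
    linarith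
  rw [abs_le]
  have := key hV hU
  simp only [abs_sub_comm (V _) (U _)] at this
  exact ⟨by linarith, key hU hV⟩

/-- a smooth weight on a finite model: the gap of the sphere -/
lemma model_gap (hV : Sm V V1 V2 lo hi L) (hVp : Pw V lo hi) {N : ℕ} (hN : 0 < N) (M : ℕ) {S : Type} [Fintype S]
    [Nonempty S] (x : S → Fin N → ℝ) (c : S → ℝ) {e : ℝ} (he : 0 ≤ e)
    (h : |∫ g, lz x c V g ∂pg N M - freeM (fun t => Real.log (V t)) (dirLaw (Fin N)) M| ≤ e) :
    |-phiU V N M - gapS x c V M| ≤ e := by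
  have hN0 : (0:ℝ) < N := by exact_mod_cast hN
  have hc : Continuous fun t => Real.log (V t) := hV.contU.log fun t => (hV.pos.trans_le (hV.ge t)).ne'
  have e1 := pressure_eq_freeM hN hc M
  rw [pressure_eq] at e1
  rw [phiU, e1, gapS, neg_div, sub_neg_eq_add, neg_add_eq_sub, ← sub_div, abs_div, Nat.abs_cast, div_le_iff₀ hN0]
  exact h.trans (le_mul_of_one_le_right he (by exact_mod_cast hN))

/-- the annealed criterion on the sphere -/
def SCrit (U : ℝ → ℝ) (α : ℝ) : Prop := ∀ q ∈ Ico (0:ℝ) 1, α * Psi U q + G0 q ≤ 0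

section Main

variable {f : ℝ → ℝ} {B : ℝ} (hf : Measurable f) (hB : ∀ s, |f s| ≤ B) (hB0 : 0 < B)
include hf hB hB0

/-- a smooth weight close enough to that of `f` -/
lemma exists_near {α e e' : ℝ} (hα : 0 ≤ α) (he : 0 < e) (he' : 0 < e') :
    ∃ V V1 V2 : ℝ → ℝ, ∃ L : ℝ, Sm V V1 V2 (Real.exp (-(2 * B))) (Real.exp (2 * B)) L ∧
      Pw V (Real.exp (-(2 * B))) (Real.exp (2 * B)) ∧
      (∀ q ∈ Icc (0:ℝ) 1, |α * Psi (wgt f) q - α * Psi V q| ≤ e) ∧
      ∀ N M : ℕ, 0 < N → (M:ℝ) ≤ α * N → |phiU (wgt f) N M - phiU V N M| ≤ e' := by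
  set lo := Real.exp (-(2 * B))
  set hi := Real.exp (2 * B)
  have hl := lb_nonneg (lo := lo) (hi := hi)
  set θ := min (1 / 2) ((e' / 2) / (2 * α * lb lo hi + 1))
  have hθ0 : 0 < θ := lt_min (by norm_num) (by positivity)
  have hθb : θ * (2 * α * lb lo hi) ≤ e' / 2 :=
    (mul_le_mul_of_nonneg_right (min_le_right _ _) (by positivity)).trans (div_choice (by positivity) (by positivity))
  set E := α * (Real.exp (2 * lb lo hi / θ) / lo)
  have hE : 0 ≤ E := by positivity
  set ω := min ((e' / 2) / (E + 1)) (e / (α * (lb lo hi + 1) + 1))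
  have hω : 0 < ω := lt_min (by positivity) (by positivity)
  obtain ⟨V, V1, V2, L, hS, hV, hd⟩ := exists_smooth hf hB hB0 hω
  have hI : 0 ≤ ∫ x, |wgt f x - V x| ∂gaussianReal 0 1 := integral_nonneg fun x => abs_nonneg _
  refine ⟨V, V1, V2, L, hS, hV, fun q hq => ?_, fun N M hN hM => ?_⟩
  · rw [← mul_sub, abs_mul, abs_of_nonneg hα]
    refine (mul_le_mul_of_nonneg_left ((Psi_stable (wgt_pw hf hB) hV hq).trans
      (mul_le_mul_of_nonneg_left (hd.trans (min_le_right _ _)) (by linarith))) hα).trans ?_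
    rw [← mul_assoc, mul_comm]
    exact div_choice he.le (by positivity)
  · refine (phiU_close (wgt_pw hf hB) hV hN hM hθ0 (min_le_left _ _)).trans ?_
    have h2 : E * ∫ x, |wgt f x - V x| ∂gaussianReal 0 1 ≤ e' / 2 := by
      refine (mul_le_mul_of_nonneg_left (hd.trans (min_le_left _ _)) hE).trans ?_
      rw [mul_comm]
      exact div_choice (by positivity) hE
    simp only [E] at h2
    linarith

lemma sphere_small {α : ℝ} (hα : 0 < α) (hc : SCrit (wgt f) α) {ε : ℝ} (hε : 0 < ε) :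
    ∀ᶠ N : ℕ in atTop, -phiU (wgt f) N ⌊α * N⌋₊ ≤ ε := by
  set lo := Real.exp (-(2 * B))
  set hi := Real.exp (2 * B)
  have hl := lb_nonneg (lo := lo) (hi := hi)
  set a := 2 * α * lb lo hi ^ 2
  have ha : 0 ≤ a := by positivity
  set s := min 1 ((ε / 8) / (a + 1))
  have hs : 0 < s := lt_min one_pos (by positivity)
  have hs1 : s ≤ 1 := min_le_left _ _
  have has : s * a ≤ ε / 8 :=
    (mul_le_mul_of_nonneg_right (min_le_right _ _) ha).trans (div_choice (by positivity) ha)
  set e := s * ε / 16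
  have he : 0 < e := by positivity
  obtain ⟨V, V1, V2, L, hS, hV, hΨ, hφ⟩ := exists_near hf hB hB0 hα.le he (show 0 < ε / 8 by positivity)
  set bmax := α * (L ^ 2 / lo)
  have hb0 : 0 ≤ bmax := by have := hS.pos; positivity
  set T := 2 * e + bmax + 1
  have hT : 0 ≤ T := by positivity
  set CT := √T + T + √T * T
  have hCT : 0 ≤ CT := by positivity
  set δ := min (1 / 2) (e / (CT + 1))
  have hδ0 : 0 < δ := lt_min (by norm_num) (by positivity)
  have hδ1 : δ < 1 := (min_le_left _ _).trans_lt (by norm_num)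
  have hδC : δ * CT ≤ e := (mul_le_mul_of_nonneg_right (min_le_right _ _) hCT).trans (div_choice he.le hCT)
  set C := 2 * L ^ 2 / lo
  have hC : 0 ≤ C := by have := hS.pos; positivity
  obtain ⟨r, η, hr, hη, hr1, hη1⟩ := small_err hC hα.le le_rfl he he
  set K := K4 lo hi α T
  have hlim : Tendsto (fun N : ℕ => C * (α * r + (2 * α * Rg η K T N + (N:ℝ)⁻¹ ^ 3) / e / r)) atTop
      (𝓝 (C * (α * r + (2 * α * (2 * η) + 0 ^ 3) / e / r))) :=
    ((((((tendsto_Rg η K T).const_mul (2 * α)).add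
      ((tendsto_inv_atTop_zero.comp tendsto_natCast_atTop_atTop).pow 3)).div_const e).div_const r).const_add
        (α * r)).const_mul C
  have hsmall : C * (α * r + (2 * α * (2 * η) + 0 ^ 3) / e / r) < 3 * e := by
    rw [show C * (α * r + (2 * α * (2 * η) + 0 ^ 3) / e / r) = C * α * r + (C * α / r + 0 / 2) * (4 * η / e) by ring]
    linarith
  have hlog : ∀ᶠ N : ℕ in atTop, Real.log 2 / N < e :=
    (tendsto_const_div_atTop_nhds_zero_nat _).eventually (eventually_lt_nhds he)
  have hshell : ∀ᶠ N : ℕ in atTop, 2 * K₂ ≤ δ ^ 2 * N :=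
    (tendsto_natCast_atTop_atTop.const_mul_atTop (by positivity)).eventually_ge_atTop _
  filter_upwards [hlim.eventually (eventually_lt_nhds hsmall), hlog, hshell, eventually_gt_atTop 0] with N hE hlg hsh hN
  set M := ⌊α * (N:ℝ)⌋₊
  have hM : (M:ℝ) ≤ α * N := Nat.floor_le (by positivity)
  obtain ⟨S, _, _, x, c, hG, hsp, hk0, hfe⟩ := finite_model hS hV hN M hT he hδ0 hδ1 hsh
  have hg := (abs_le.1 (model_gap hS hV hN M x c he.le hfe)).2
  have hK := upper_fin hG hS hV (δ := 4 * e) (T := T) (K := K) hM (by positivity) he hr hη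
    (by simp only [T, bmax]; linarith) le_rfl (fun m hm l h0 hlT => hsp m hm l h0.le hlT.le) (fun b hb hbT => ?_)
  · have hb2 := (gap_bounds hG hV hM (s := s)).1
    have h1 : kk x c V M 0 ≤ s * ε / 2 := by simp only [C] at hE; simp only [e] at hK hE ⊢; linarith
    have h2 := mul_le_mul_of_nonneg_left h1 (sub_nonneg.2 hs1)
    have h3 : a * s ^ 2 ≤ s * (ε / 8) := by
      rw [show a * s ^ 2 = s * (s * a) by ring]; exact mul_le_mul_of_nonneg_left has hs.le
    have h4 : gapS x c V M ≤ 5 * ε / 8 := by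
      refine le_of_mul_le_mul_left ?_ hs
      simp only [a] at h3
      linarith [mul_nonneg hs.le (mul_nonneg hs.le hε.le)]
    have h5 : e ≤ ε / 16 := by
      simp only [e]; linarith [mul_le_of_le_one_left hε.le hs1]
    linarith [(abs_le.1 (hφ N M hN hM)).1]
  · obtain ⟨hq, heq⟩ := G0_eq hb
    refine ⟨_, Ico_subset_Icc_self hq, ?_⟩
    have h1 := hc _ hq
    have h2 := (abs_le.1 (hΨ _ (Ico_subset_Icc_self hq))).1
    have h3 := hk0 b hb (by simp only [T, bmax] at hbT ⊢; linarith)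
    simp only [CT] at hδC
    linarith

lemma sphere_large {α : ℝ} (hα : 0 < α) (hc : ¬ SCrit (wgt f) α) :
    ∃ δ, 0 < δ ∧ ∀ᶠ N : ℕ in atTop, δ ≤ -phiU (wgt f) N ⌊α * N⌋₊ := by
  unfold SCrit at hc
  push Not at hc
  obtain ⟨q₀, hq₀, hpos⟩ := hc
  set lo := Real.exp (-(2 * B))
  set hi := Real.exp (2 * B)
  have hl := lb_nonneg (lo := lo) (hi := hi)
  set e := (α * Psi (wgt f) q₀ + G0 q₀) / 12
  have he : 0 < e := by positivity
  set a := 2 * α * lb lo hi ^ 2
  have ha : 0 ≤ a := by positivity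
  set s := min 1 (e / (a + 1))
  have hs : 0 < s := lt_min one_pos (by positivity)
  have hs1 : s ≤ 1 := min_le_left _ _
  have has : s * a ≤ e := (mul_le_mul_of_nonneg_right (min_le_right _ _) ha).trans (div_choice he.le ha)
  obtain ⟨V, V1, V2, L, hS, hV, hΨ, hφ⟩ := exists_near hf hB hB0 hα.le he (show 0 < s * e by positivity)
  set r₀ := α * rho V V1 q₀
  have hr₀ : 0 ≤ r₀ := mul_nonneg hα.le (hS.rho_nonneg _)
  set T := 2 * e + r₀ + 1
  have hT : 0 ≤ T := by positivity
  set C := 2 * L ^ 2 / lo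
  have hC : 0 ≤ C := by have := hS.pos; positivity
  obtain ⟨r, η, hr, hη, hr1, hη1⟩ := small_err hC hα.le hr₀ he he
  set K := K4 lo hi α T
  have hinv : Tendsto (fun N : ℕ => (N:ℝ)⁻¹) atTop (𝓝 0) := tendsto_inv_atTop_zero.comp tendsto_natCast_atTop_atTop
  have hsq : Tendsto (fun N : ℕ => (√(N:ℝ))⁻¹) atTop (𝓝 0) :=
    tendsto_inv_atTop_zero.comp (Real.tendsto_sqrt_atTop.comp tendsto_natCast_atTop_atTop)
  have hlim : Tendsto (fun N : ℕ => hi * lb lo hi * (N:ℝ)⁻¹ + C * α * r + (C * α / r + r₀ / 2) *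
      ((2 * (Rg η K T N + 2 * r₀ / α * (N:ℝ)⁻¹) + 2 / α * (N:ℝ)⁻¹ ^ 3) / e)) atTop
      (𝓝 (hi * lb lo hi * 0 + C * α * r + (C * α / r + r₀ / 2) *
        ((2 * (2 * η + 2 * r₀ / α * 0) + 2 / α * 0 ^ 3) / e))) :=
    ((hinv.const_mul _).add_const _).add
      ((((((tendsto_Rg η K T).add (hinv.const_mul (2 * r₀ / α))).const_mul 2).add
        ((hinv.pow 3).const_mul (2 / α))).div_const e).const_mul _)
  have hsmall : hi * lb lo hi * 0 + C * α * r + (C * α / r + r₀ / 2) *
      ((2 * (2 * η + 2 * r₀ / α * 0) + 2 / α * 0 ^ 3) / e) < 3 * e := by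
    rw [show hi * lb lo hi * 0 + C * α * r + (C * α / r + r₀ / 2) *
      ((2 * (2 * η + 2 * r₀ / α * 0) + 2 / α * 0 ^ 3) / e) = C * α * r + (C * α / r + r₀ / 2) * (4 * η / e) by ring]
    linarith
  refine ⟨s * e, by positivity, ?_⟩
  filter_upwards [hlim.eventually (eventually_lt_nhds hsmall), hsq.eventually (eventually_lt_nhds he),
    (tendsto_natCast_atTop_atTop.const_mul_atTop (show (0:ℝ) < (1 / 2 : ℝ) ^ 2 by norm_num)).eventually_ge_atTop (2 * K₂),
    (tendsto_natCast_atTop_atTop.const_mul_atTop hα).eventually_ge_atTop 2, eventually_gt_atTop 0] with N hE hsqN hsh hαN hN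
  set M := ⌊α * (N:ℝ)⌋₊
  have hM : (M:ℝ) ≤ α * N := Nat.floor_le (by positivity)
  obtain ⟨S, _, _, x, c, hG, hsp, -, hfe⟩ :=
    finite_model hS hV hN M hT (show 0 < s * e by positivity) (show (0:ℝ) < 1 / 2 by norm_num) (by norm_num) hsh
  have hg := (abs_le.1 (model_gap hS hV hN M x c (by positivity) hfe)).1
  have hK := lower_fin hG hS hV (δ := 11 * e) (r₀ := r₀) (T := T) (K := K) hα hαN
    (by linarith [Nat.lt_floor_add_one (α * (N:ℝ))]) hM hr₀ he hr hη (by simp only [T]; linarith) le_rfl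
    (fun m hm l h0 hlT => hsp m hm l h0.le hlT.le) (fun q hq => ?_)
  · simp only [C] at hE
    have h1 : 6 * e ≤ kk x c V M 0 := by linarith
    have hb2 := (gap_bounds hG hV hM (s := s)).2 hs.le (hsp M le_rfl 0 le_rfl hT)
    have h2 := mul_le_mul_of_nonneg_left h1 hs.le
    have h3 : a * s ^ 2 ≤ s * e := by
      rw [show a * s ^ 2 = s * (s * a) by ring]; exact mul_le_mul_of_nonneg_left has hs.le
    have h4 := mul_le_mul_of_nonneg_left hsqN.le hs.le
    simp only [a] at h3
    have h5 : 4 * (s * e) ≤ gapS x c V M := by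
      have hpos : 0 < (1 - s) * gapS x c V M := by nlinarith [mul_pos hs he]
      have hg0 : 0 ≤ gapS x c V M := by
        by_contra hneg
        nlinarith [mul_nonpos_of_nonneg_of_nonpos (sub_nonneg.2 hs1) (le_of_lt (not_le.1 hneg))]
      linarith [mul_le_of_le_one_left hg0 (show 1 - s ≤ 1 by linarith)]
    linarith [(abs_le.1 (hφ N M hN hM)).2, mul_pos hs he]
  · have h1 := mul_le_mul_of_nonneg_left (hS.tangent (Ico_subset_Icc_self hq₀) hq) hα.le
    have h2 := (abs_le.1 (hΨ _ (Ico_subset_Icc_self hq₀))).2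
    have h3 := G0_le hr₀ hq₀.2
    have h4 := k0_lower hG hr₀
    simp only [r₀, e] at h1 h2 h3 h4 ⊢
    linarith

end Main

/-- the exact annealed threshold on the sphere -/
theorem sphere_threshold {f : ℝ → ℝ} {B : ℝ} (hf : Measurable f) (hB : ∀ s, |f s| ≤ B) {α : ℝ} (hα : 0 < α) :
    (Tendsto (fun N : ℕ => pressure (sphereUniform N) f ⌊α * N⌋₊) atTop (𝓝 (α * ann f)) ↔ SCrit (wgt f) α) ∧
      (¬ SCrit (wgt f) α → ∃ δ, 0 < δ ∧
        ∀ᶠ N : ℕ in atTop, pressure (sphereUniform N) f ⌊α * N⌋₊ ≤ α * ann f - δ) := by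
  obtain ⟨B', hB'0, hB'⟩ : ∃ B', 0 < B' ∧ ∀ s, |f s| ≤ B' :=
    ⟨max B 1, lt_max_of_lt_right one_pos, fun s => (hB s).trans (le_max_left _ _)⟩
  have hr := (floor_ratio hα.le).mul_const (ann f)
  have hp : ∀ N : ℕ, 0 < N → pressure (sphereUniform N) f ⌊α * N⌋₊ =
      (⌊α * N⌋₊ : ℝ) / N * ann f + phiU (wgt f) N ⌊α * N⌋₊ := fun N hN => by
    have hN0 : (0:ℝ) < N := by exact_mod_cast hN
    have hμ := carried_sphere hN
    have := hμ.prob
    have e : ∀ g : Fin ⌊α * (N:ℝ)⌋₊ → Vec N, Real.log (partition (sphereUniform N) f g) =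
        (⌊α * (N:ℝ)⌋₊ : ℝ) * ann f + Real.log (partition (sphereUniform N) (fun t => Real.log (wgt f t)) g) := fun g => by
      rw [← Real.log_exp ((⌊α * (N:ℝ)⌋₊ : ℝ) * ann f), ← Real.log_mul (Real.exp_pos _).ne'
        (partition_pos (log_meas (wgt_pw hf hB')) (wgt_pw hf hB').abs_log g).ne']
      refine congrArg Real.log ?_
      simp only [partition, ← integral_const_mul, wgt, Real.log_exp, ← Real.exp_add, Finset.sum_sub_distrib,
        Finset.sum_const, Finset.card_univ, Fintype.card_fin, nsmul_eq_mul, add_sub_cancel]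
    rw [pressure_eq, phiU, Phi, Phi]
    simp only [e]
    rw [integral_add (integrable_const _) (integrable_log_partition (log_meas (wgt_pw hf hB')) (wgt_pw hf hB').abs_log),
      integral_const, probReal_univ, one_smul, add_div]
    ring
  have strict : ¬ SCrit (wgt f) α → ∃ δ, 0 < δ ∧
      ∀ᶠ N : ℕ in atTop, pressure (sphereUniform N) f ⌊α * N⌋₊ ≤ α * ann f - δ := fun hc => by
    obtain ⟨δ, hδ, hev⟩ := sphere_large hf hB' hB'0 hα hc
    refine ⟨δ / 2, by positivity, ?_⟩
    filter_upwards [hev, eventually_gt_atTop 0,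
      hr.eventually (eventually_lt_nhds (show α * ann f < α * ann f + δ / 2 by linarith))] with N h1 hN h2
    rw [hp N hN]
    linarith
  refine ⟨⟨fun h => ?_, fun hc => ?_⟩, strict⟩
  · by_contra hc
    obtain ⟨δ, hδ, hev⟩ := strict hc
    linarith [le_of_tendsto h hev]
  · rw [tendsto_pressure_iff sphereUniform f hα.le, Metric.tendsto_nhds]
    intro ε hε
    filter_upwards [sphere_small hf hB' hB'0 hα hc (half_pos hε), eventually_gt_atTop 0] with N h1 hN
    have h2 := hp N hN
    rw [pressure_gap] at h2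
    have h0 := div_nonneg (gap_nonneg hN (carried_sphere hN) hf hB' ⌊α * (N:ℝ)⌋₊) (Nat.cast_nonneg (α := ℝ) N)
    rw [Real.dist_eq, sub_zero, abs_of_nonneg h0]
    linarith

end Vale.Agent.P157.Gen
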